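import Vale.Agent.P284Z.I.Defs
import Vale.Agent.P260.H573.Places

/-!
# P284Z, block I: finitely many complex embeddings control the algebraic integers
-/

open Set Cardinal

noncomputable section

namespace Vale.Agent.P284Z.GI

open Vale.Agent.P260.F

theorem countable_of_ess (F : Type) [Field F] [CharZero F] [Algebra.EssFiniteType ℚ F] :
    Countable F := by
  obtain ⟨s, hs⟩ := IntermediateField.fg_top ℚ F
  have h := IntermediateField.cardinalMk_adjoin_le ℚ (s : Set F)
  rw [hs] at h
  have h1 : Countable (⊤ : IntermediateField ℚ F) := Cardinal.mk_le_aleph0_iff.1 (h.trans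
    (sup_le (sup_le Cardinal.mk_le_aleph0 Cardinal.mk_le_aleph0) le_rfl))
  exact (IntermediateField.topEquiv (F := ℚ) (E := F)).surjective.countable

open scoped IntermediateField.algebraAdjoinAdjoin in
theorem finite_algCl (F : Type) [Field F] [CharZero F] [Algebra.EssFiniteType ℚ F] :
    Module.Finite ℚ (algebraicClosure ℚ F) := by
  obtain ⟨ι, x, hx⟩ := exists_isTranscendenceBasis' ℚ F
  have h1 := hx.isAlgebraic_field
  have h2 : Algebra.EssFiniteType (IntermediateField.adjoin ℚ (range x)) F := .of_comp ℚ _ _
  have h3 : Module.Finite (IntermediateField.adjoin ℚ (range x)) F :=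
    Algebra.finite_of_essFiniteType_of_isAlgebraic
  have h4 : Function.Injective _ := hx.1.algebraicClosure
  rw [← Module.rank_lt_aleph0_iff]
  refine (rank_le (n := Module.finrank (IntermediateField.adjoin ℚ (range x)) F)
    fun s hs => ?_).trans_lt (Cardinal.natCast_lt_aleph0)
  rw [← Fintype.card_coe]
  refine LinearIndependent.fintype_card_le_finrank (b := fun i : s => ((i : _) : F))
    ((LinearIndependent.iff_fractionRing (Algebra.adjoin ℚ (range x)) _).1 ?_)
  refine Fintype.linearIndependent_iff.2 fun p hp i => ?_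
  have h5 : ∀ i, ∃ P : MvPolynomial ι ℚ, MvPolynomial.aeval x P = (p i : F) := fun i =>
    (Algebra.adjoin_range_eq_range_aeval ℚ x).le (p i).2
  choose P hP using h5
  have h6 : ∑ i : s, MvPolynomial.C (i : algebraicClosure ℚ F) *
      MvPolynomial.map (algebraMap ℚ (algebraicClosure ℚ F)) (P i) = 0 := by
    apply h4
    rw [map_zero, map_sum, ← hp]
    refine Finset.sum_congr rfl fun i _ => ?_
    rw [map_mul, MvPolynomial.aeval_C, MvPolynomial.aeval_map_algebraMap, hP, mul_comm]
    rfl
  have h7 : P i = 0 := by
    ext m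
    refine Fintype.linearIndependent_iff.1 hs (fun i => (P i).coeff m) ?_ i
    have := congrArg (MvPolynomial.coeff m) h6
    rw [MvPolynomial.coeff_sum, MvPolynomial.coeff_zero] at this
    rw [← this]
    refine Finset.sum_congr rfl fun i _ => ?_
    rw [MvPolynomial.coeff_C_mul, MvPolynomial.coeff_map, Algebra.smul_def, mul_comm]
  exact Subtype.ext (by rw [← hP, h7, map_zero]; rfl)

theorem stArch : StArch := by
  intro F _ _ _
  have h1 := countable_of_ess F
  have h2 := finite_algCl F
  have hnf : NumberField (algebraicClosure ℚ F) :=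
    { to_charZero := inferInstance, to_finiteDimensional := h2 }
  choose σ hσ using fun φ : algebraicClosure ℚ F →+* ℂ =>
    exists_ext (K := F) (uncountable_of_nnf ℂ) (algebraMap (algebraicClosure ℚ F) F)
      Subtype.val_injective φ φ.injective
  refine ⟨range σ, finite_range σ, fun B => ?_⟩
  refine ((NumberField.Embeddings.finite_of_norm_le (algebraicClosure ℚ F) ℂ B).image
    (algebraMap _ F)).subset fun α ⟨a1, a2⟩ => ?_
  refine ⟨⟨α, mem_algebraicClosure_iff'.2 a1.tower_top⟩,
    ⟨(isIntegral_algebraMap_iff (B := F) Subtype.val_injective).1 a1, fun φ => ?_⟩, rfl⟩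
  rw [← hσ]
  exact a2 _ ⟨φ, rfl⟩

end Vale.Agent.P284Z.GI
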