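import Vale.Agent.P284Z.I.Pad

/-!
# P284Z, block I: the strongly irreducible case
-/

open Set Filter

noncomputable section

namespace Vale.Agent.P284Z.GI

open Vale.Agent.P260.F

theorem span_top_of_map {K K' : Type} [Field K] [Field K'] (σ : K →+* K') {n : ℕ}
    (S : Set (Matrix (Fin n) (Fin n) K))
    (h : Submodule.span K' ((fun A : Matrix (Fin n) (Fin n) K => A.map σ) '' S) = ⊤) :
    Submodule.span K S = ⊤ := by
  by_contra h1
  obtain ⟨f, hf, h2⟩ := (Submodule.span K S).exists_le_ker_of_lt_top (lt_top_iff_ne_top.2 h1)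
  let B : Matrix (Fin n) (Fin n) K := Matrix.of fun j i => f (Matrix.single i j 1)
  have h3 : ∀ A, (A * B).trace = f A := fun A => by
    conv_rhs => rw [Matrix.matrix_eq_sum_single A]
    simp only [map_sum, Matrix.trace, Matrix.diag, Matrix.mul_apply, B, Matrix.of_apply]
    refine Finset.sum_congr rfl fun i _ => Finset.sum_congr rfl fun j _ => ?_
    rw [← smul_eq_mul, ← map_smul, Matrix.smul_single, smul_eq_mul, mul_one]
  have h4 : B.map σ = 0 := eq_zero_of_trace _ fun A => by
    have hA : A ∈ Submodule.span K' _ := h ▸ Submodule.mem_top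
    induction hA using Submodule.span_induction with
    | mem x hx =>
      obtain ⟨A, hA, rfl⟩ := hx
      rw [← Matrix.map_mul, ← AddMonoidHom.map_trace, Matrix.trace_mul_comm, h3,
        show f A = 0 from h2 (Submodule.subset_span hA), map_zero]
    | zero => simp
    | add x y _ _ hx hy => rw [mul_add, Matrix.trace_add, hx, hy, add_zero]
    | smul a x _ hx => rw [mul_smul_comm, Matrix.trace_smul, hx, smul_zero]
  have h5 : B = 0 := Matrix.map_injective σ.injective
    (h4.trans (Matrix.map_zero _ (map_zero σ)).symm)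
  exact hf (LinearMap.ext fun A => by rw [← h3, h5, mul_zero, Matrix.trace_zero]; rfl)

theorem core_field (hS : StStab) (hFU : StFU) (hP : StPad) (hA : StArch) {F : Type} [Field F]
    [CharZero F] [Algebra.EssFiniteType ℚ F] {L : Type} [Group L] (M : Sm L) {n : ℕ}
    {s : L →* Matrix (Fin n) (Fin n) F} (hd : ∀ g, (s g).det = 1) (hs : Str s) (g : L) :
    s g = 1 := by
  obtain ⟨E, hE, h1⟩ := hA F
  choose C hC using fun σ : F →+* ℂ => hFU ℂ L M n _ (mapS_det σ hd) (hs.mapS σ)
  have hU := (eventually_all_finite hE).2 fun σ _ => hC σ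
  have hsp := hs ⊤ inferInstance
  let b := Module.Basis.ofSpan hsp.ge
  have := Module.Finite.finite_basis b
  let _ := Fintype.ofFinite (↥((linearIndepOn_empty F id).extend (Set.empty_subset
    (s '' ((⊤ : Subgroup L) : Set L)))))
  choose u _ hu using fun j => Module.Basis.ofSpan_subset hsp.ge ⟨j, rfl⟩
  obtain ⟨B, hB⟩ := ((hE.prod (finite_univ)).image fun x : (F →+* ℂ) × _ =>
    ∑ i, ∑ j, C x.1 * ‖x.1 (b x.2 j i)‖).bddAbove
  have h2 : ((fun g j => (s g * b j).trace) ''
      {g | ∀ σ ∈ E, ∀ a c, ‖mapS σ s g a c‖ ≤ C σ}).Finite := by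
    refine (Finite.pi' fun _ => h1 B).subset ?_
    rintro _ ⟨g, hg, rfl⟩ j
    refine ⟨by simpa only [b, ← hu j, ← map_mul] using hP F L M n s hd hs (g * u j),
      fun σ hσ => le_trans ?_ (hB ⟨(σ, j), ⟨hσ, trivial⟩, rfl⟩)⟩
    simp only [Matrix.trace, Matrix.diag, Matrix.mul_apply, map_sum, map_mul]
    refine (norm_sum_le _ _).trans (Finset.sum_le_sum fun i _ => (norm_sum_le _ _).trans
      (Finset.sum_le_sum fun l _ => ?_))
    rw [norm_mul]
    exact mul_le_mul_of_nonneg_right (hg σ hσ i l) (norm_nonneg _)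
  obtain ⟨T, -, hT, h3⟩ := h2.exists_subset_finite_image_eq Subset.rfl
  have h4 := hS L M s.ker _ hU T hT fun g hg => by
    obtain ⟨t, ht, h5⟩ := h3.ge ⟨g, hg, rfl⟩
    have h6 : s t = s g := sub_eq_zero.1 (eq_zero_of_trace_basis b _ fun j => by
      rw [sub_mul, Matrix.trace_sub, sub_eq_zero]; exact congrFun h5 j)
    exact ⟨t, ht, by rw [MonoidHom.mem_ker, map_mul, ← h6, ← map_mul, inv_mul_cancel, map_one]⟩
  have h5 : ∀ A : Matrix (Fin n) (Fin n) F, ∃ c : F, c • 1 = A := fun A =>
    Submodule.mem_span_singleton.1 (Submodule.span_mono (by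
      rintro _ ⟨g, hg, rfl⟩; exact hg) ((hs _ h4).ge Submodule.mem_top))
  have h6 : Subsingleton (Fin n) := ⟨fun i j => by
    by_contra hij
    obtain ⟨c, hc⟩ := h5 (Matrix.single i j 1)
    simpa [Matrix.one_apply, hij] using congrFun (congrFun hc i) j⟩
  ext i j
  rw [Subsingleton.elim j i, ← Matrix.det_eq_elem_of_subsingleton (s g), hd, Matrix.one_apply_eq]

theorem exists_desc {L K K' : Type} [Group L] [Field K] [Field K'] {n : ℕ} (σ : K →+* K')
    (s : L →* Matrix (Fin n) (Fin n) K') (h : ∀ g a b, ∃ x, σ x = s g a b) :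
    ∃ s₀ : L →* Matrix (Fin n) (Fin n) K, ∀ g, (s₀ g).map σ = s g := by
  choose f hf using h
  have h1 : ∀ g, (Matrix.of (f g)).map σ = s g := fun g => Matrix.ext (hf g)
  have hinj : ∀ A B : Matrix (Fin n) (Fin n) K, A.map σ = B.map σ → A = B := fun A B h =>
    Matrix.map_injective σ.injective h
  exact ⟨{ toFun := fun g => Matrix.of (f g)
           map_one' := hinj _ _ (by rw [h1, map_one, Matrix.map_one _ (map_zero _) (map_one _)])
           map_mul' := fun a b => hinj _ _ (by rw [Matrix.map_mul, h1, h1, h1, map_mul]) }, h1⟩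

theorem stCore_of (hS : StStab) (hFU : StFU) (hP : StPad) (hA : StArch) : StCore := by
  intro L _ M n s T hT h1 hd hs g
  have : Algebra.EssFiniteType ℚ (IntermediateField.adjoin ℚ T) :=
    IntermediateField.essFiniteType_iff.2 (IntermediateField.fg_adjoin_of_finite hT)
  obtain ⟨s₀, h2⟩ := exists_desc (algebraMap (IntermediateField.adjoin ℚ T) ℂ) s
    fun g a b => ⟨⟨_, h1 g a b⟩, rfl⟩
  generalize algebraMap (IntermediateField.adjoin ℚ T) ℂ = σ at h2
  rw [← h2, core_field hS hFU hP hA M (s := s₀) (fun g => σ.injective (by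
    rw [σ.map_det, RingHom.mapMatrix_apply, h2, hd, map_one])) (fun H hH => span_top_of_map σ _
      (by simpa only [image_image, h2] using hs H hH)) g, Matrix.map_one _ (map_zero _) (map_one _)]

end Vale.Agent.P284Z.GI
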