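import Vale.Agent.P284Z.I.Stab
import Mathlib.Analysis.Normed.Module.FiniteDimension

/-!
# P284Z, block I: Furstenberg's lemma for almost invariant finitely additive probabilities
-/

open scoped Topology Pointwise
open Filter Set Module

noncomputable section

namespace Vale.Agent.P284Z.GI

namespace Sm
variable {L : Type} [Group L] (M : Sm L)

theorem mono {A B : Set L} (h : A ⊆ B) : M.μ A ≤ M.μ B := by
  have h1 := M.add A (B \ A) disjoint_sdiff_right
  rw [union_sdiff_cancel h] at h1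
  linarith [M.nonneg (B \ A)]

theorem empty : M.μ ∅ = 0 := by
  have h1 := M.add ∅ ∅ (by simp)
  rw [union_self] at h1
  linarith

theorem modular (A B : Set L) : M.μ (A ∪ B) + M.μ (A ∩ B) = M.μ A + M.μ B := by
  have h1 := M.add A (B \ A) disjoint_sdiff_right
  have h2 := M.add (A ∩ B) (B \ A) (disjoint_sdiff_right.mono_left inter_subset_left)
  rw [union_sdiff_self] at h1
  rw [inter_comm A B, inter_union_sdiff] at h2
  rw [inter_comm A B]
  linarith

/-- the mass of a filter -/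
def ms (𝓕 : Filter L) : ℝ := sInf (M.μ '' {A | A ∈ 𝓕})

theorem ms_le {𝓕 : Filter L} {A : Set L} (h : A ∈ 𝓕) : M.ms 𝓕 ≤ M.μ A :=
  csInf_le ⟨0, by rintro _ ⟨B, -, rfl⟩; exact M.nonneg B⟩ ⟨A, h, rfl⟩

theorem le_ms {𝓕 : Filter L} {c : ℝ} (h : ∀ A ∈ 𝓕, c ≤ M.μ A) : c ≤ M.ms 𝓕 :=
  le_csInf ⟨_, univ, univ_mem, rfl⟩ (by rintro _ ⟨B, hB, rfl⟩; exact h B hB)

theorem ms_nonneg (𝓕 : Filter L) : 0 ≤ M.ms 𝓕 := M.le_ms fun A _ => M.nonneg A

theorem ms_mono {𝓕 𝓖 : Filter L} (h : 𝓕 ≤ 𝓖) : M.ms 𝓕 ≤ M.ms 𝓖 :=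
  M.le_ms fun _ hA => M.ms_le (h hA)

theorem le_add {𝓕 𝓖 : Filter L} {c : ℝ} (h : ∀ A ∈ 𝓕, ∀ B ∈ 𝓖, c ≤ M.μ A + M.μ B) :
    c ≤ M.ms 𝓕 + M.ms 𝓖 := by
  have h1 : c - M.ms 𝓖 ≤ M.ms 𝓕 := M.le_ms fun A hA => by
    have h2 : c - M.μ A ≤ M.ms 𝓖 := M.le_ms fun B hB => by linarith [h A hA B hB]
    linarith
  linarith

theorem ms_sup_le (𝓕 𝓖 : Filter L) : M.ms (𝓕 ⊔ 𝓖) ≤ M.ms 𝓕 + M.ms 𝓖 :=
  M.le_add fun A hA B hB => by
    have h1 := M.ms_le (𝓕 := 𝓕 ⊔ 𝓖) (A := A ∪ B)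
      ⟨mem_of_superset hA subset_union_left, mem_of_superset hB subset_union_right⟩
    linarith [M.modular A B, M.nonneg (A ∩ B)]

theorem add_le (𝓕 𝓖 : Filter L) : M.ms 𝓕 + M.ms 𝓖 ≤ M.ms (𝓕 ⊔ 𝓖) + M.ms (𝓕 ⊓ 𝓖) :=
  M.le_add fun A hA B hB => by
    obtain ⟨B₁, h1, B₂, h2, rfl⟩ := mem_inf_iff.1 hB
    have h3 := M.ms_le (inter_mem hA.1 h1)
    have h4 := M.ms_le (inter_mem hA.2 h2)
    have h5 := M.modular (A ∩ B₁) (A ∩ B₂)
    have h6 := M.mono (union_subset (inter_subset_left (s := A) (t := B₁))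
      (inter_subset_left (s := A) (t := B₂)))
    have h7 := M.mono (inter_subset_inter (inter_subset_right (s := A) (t := B₁))
      (inter_subset_right (s := A) (t := B₂)))
    linarith

theorem ms_bot : M.ms ⊥ ≤ 0 := (M.ms_le mem_bot).trans M.empty.le

theorem sum_le {ι : Type} (𝓕 : ι → Filter L) (T : Finset ι)
    (h : ∀ i ∈ T, ∀ j ∈ T, i ≠ j → M.ms (𝓕 i ⊓ 𝓕 j) ≤ 0) : ∑ i ∈ T, M.ms (𝓕 i) ≤ 1 := by
  classical
  have h0 : ∀ (𝓖 : ι → Filter L) (T : Finset ι), (∀ i ∈ T, M.ms (𝓖 i) ≤ 0) → M.ms (T.sup 𝓖) ≤ 0 := by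
    intro 𝓖 T
    induction T using Finset.induction_on with
    | empty => exact fun _ => M.ms_bot
    | insert i T hi ih =>
      intro h
      rw [Finset.sup_insert]
      linarith [M.ms_sup_le (𝓖 i) (T.sup 𝓖), h i (Finset.mem_insert_self _ _),
        ih fun j hj => h j (Finset.mem_insert_of_mem hj)]
  have h1 : ∑ i ∈ T, M.ms (𝓕 i) ≤ M.ms (T.sup 𝓕) := by
    induction T using Finset.induction_on with
    | empty => simpa using M.ms_nonneg ⊥
    | insert i T hi ih =>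
      rw [Finset.sum_insert hi, Finset.sup_insert]
      have h2 := M.add_le (𝓕 i) (T.sup 𝓕)
      rw [Finset.sup_inf_distrib_left] at h2
      linarith [h0 (fun j => 𝓕 i ⊓ 𝓕 j) T fun j hj => h i (Finset.mem_insert_self _ _) j
        (Finset.mem_insert_of_mem hj) (fun e => hi (e ▸ hj)),
        ih fun a ha b hb => h a (Finset.mem_insert_of_mem ha) b (Finset.mem_insert_of_mem hb)]
  exact h1.trans ((M.ms_le univ_mem).trans M.total.le)

end Sm

variable {k : Type} [NontriviallyNormedField k] [ProperSpace k] {V : Type} [NormedAddCommGroup V]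
  [NormedSpace k V] [FiniteDimensional k V]

theorem sec {V' : Type} [NormedAddCommGroup V'] [NormedSpace k V'] (f : V →ₗ[k] V') :
    ∃ C > (0 : ℝ), ∀ v, ∃ w ∈ LinearMap.ker f, ‖v - w‖ ≤ C * ‖f v‖ := by
  obtain ⟨r, hr⟩ := f.rangeRestrict.exists_rightInverse_of_surjective f.range_rangeRestrict
  obtain ⟨C, hC, h⟩ := (LinearMap.toContinuousLinearMap r).bound
  refine ⟨C, hC, fun v => ⟨v - r (f.rangeRestrict v), ?_, ?_⟩⟩
  · have h1 : f (r (f.rangeRestrict v)) = f v :=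
      congrArg Subtype.val (LinearMap.congr_fun hr (f.rangeRestrict v))
    rw [LinearMap.mem_ker, map_sub, h1, sub_self]
  · rw [sub_sub_cancel]
    exact h (f.rangeRestrict v)

variable {L : Type}

/-- the indices of the vectors which are close to `W` -/
def near (x : L → V) (W : Submodule k V) (δ : ℝ) : Set L := {a | ∃ w ∈ W, ‖x a - w‖ ≤ δ * ‖x a‖}

omit [ProperSpace k] [FiniteDimensional k V] in
theorem near_mono (x : L → V) (W : Submodule k V) {δ δ' : ℝ} (h : δ ≤ δ') :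
    near x W δ ⊆ near x W δ' := fun _ ⟨w, hw, h1⟩ =>
  ⟨w, hw, h1.trans (mul_le_mul_of_nonneg_right h (norm_nonneg _))⟩

/-- the filter of the neighbourhoods of `W` -/
def nf (x : L → V) (W : Submodule k V) : Filter L where
  sets := {A | ∃ δ > 0, near x W δ ⊆ A}
  univ_sets := ⟨1, one_pos, subset_univ _⟩
  sets_of_superset := fun ⟨δ, hδ, h⟩ h' => ⟨δ, hδ, h.trans h'⟩
  inter_sets := fun ⟨δ, hδ, h⟩ ⟨δ', hδ', h'⟩ => ⟨min δ δ', lt_min hδ hδ', subset_inter
    ((near_mono x W (min_le_left _ _)).trans h) ((near_mono x W (min_le_right _ _)).trans h')⟩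

theorem nf_inf (x : L → V) (W W' : Submodule k V) : nf x W ⊓ nf x W' ≤ nf x (W ⊓ W') := by
  rintro A ⟨δ, hδ, hA⟩
  obtain ⟨C, hC, h⟩ := sec (W.subtype.coprod (-W'.subtype))
  have hp : 0 < δ / (1 + 2 * C) := by positivity
  refine mem_inf_iff_superset.2 ⟨_, ⟨_, hp, subset_rfl⟩, _, ⟨_, hp, subset_rfl⟩, ?_⟩
  rintro a ⟨⟨w, hw, h1⟩, w', hw', h2⟩
  obtain ⟨⟨u, u'⟩, h3, h4⟩ := h (⟨w, hw⟩, ⟨w', hw'⟩)
  have h5 : (u : V) = u' := by simpa [add_neg_eq_zero] using h3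
  have h6 : ‖w - u‖ ≤ C * ‖w - w'‖ := by
    refine ((norm_fst_le _).trans h4).trans_eq ?_
    simp [sub_eq_add_neg]
  refine hA ⟨u, ⟨u.2, h5 ▸ u'.2⟩, ?_⟩
  have h7 : ‖w - w'‖ ≤ ‖x a - w'‖ + ‖x a - w‖ := by
    have : w - w' = (x a - w') - (x a - w) := by abel
    rw [this]
    exact norm_sub_le _ _
  have h8 : ‖x a - u‖ ≤ ‖x a - w‖ + ‖w - u‖ := by
    have : x a - u = (x a - w) + (w - u) := by abel
    rw [this]
    exact norm_add_le _ _
  have h9 : δ * ‖x a‖ = (1 + 2 * C) * (δ / (1 + 2 * C) * ‖x a‖) := by field_simp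
  rw [h9]
  nlinarith

variable [Group L]

theorem fu_abs (M : Sm L) (σ : L →* (V →L[k] V)) (hdet : ∀ g, (σ g).det = 1)
    (hirr : ∀ H : Subgroup L, H.FiniteIndex → ∀ W : Submodule k V,
      (∀ g ∈ H, ∀ v ∈ W, σ g v ∈ W) → W = ⊥ ∨ W = ⊤) : ∃ C : ℝ, ∀ᶠ g in M.F, ‖σ g‖ ≤ C := by
  by_contra hcon
  push Not at hcon
  rcases subsingleton_or_nontrivial V with hV | hV
  · obtain ⟨g, hg⟩ := (hcon 0).exists
    simp at hg
  obtain ⟨v₀, hv₀⟩ := exists_ne (0 : V)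
  obtain ⟨x, hx⟩ : ∃ x : L → V, ∀ a, x a = σ a v₀ := ⟨_, fun _ => rfl⟩
  have hmul : ∀ g h v, σ (g * h) v = σ g (σ h v) := fun g h v => by rw [map_mul]; rfl
  have hinv : ∀ g v, σ g⁻¹ (σ g v) = v := fun g v => by
    rw [← hmul, inv_mul_cancel, map_one]
    rfl
  have hxm : ∀ g a, x (g * a) = σ g (x a) := fun g a => by rw [hx, hx, hmul]
  obtain ⟨m, hm⟩ : ∃ m : Submodule k V → ℝ, ∀ W, m W = M.ms (nf x W) := ⟨_, fun _ => rfl⟩
  -- the zero subspace has no mass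
  have m_bot : m ⊥ ≤ 0 := by
    rw [hm, ← M.empty]
    refine M.ms_le ⟨1 / 2, by norm_num, ?_⟩
    rintro a ⟨w, hw, h⟩
    rw [(Submodule.mem_bot k).1 hw, sub_zero] at h
    have h1 : x a = 0 := norm_le_zero_iff.1 (by linarith)
    exact hv₀ (by rw [← hinv a v₀, ← hx, h1, map_zero])
  -- almost invariance
  have m_map : ∀ η > (0 : ℝ), ∀ᶠ g in M.F, ∀ W, m W - η ≤ m (W.map (σ g : V →ₗ[k] V)) := by
    intro η hη
    filter_upwards [M.ai η hη] with g hg W
    rw [hm, hm]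
    refine M.le_ms fun B ⟨δ, hδ, hB⟩ => ?_
    have hp : 0 < δ / (‖σ g‖ * ‖σ g⁻¹‖ + 1) := by positivity
    have h1 := M.ms_le (𝓕 := nf x W) ⟨_, hp, subset_rfl⟩
    refine ((sub_le_sub_right h1 η).trans (hg _)).trans (M.mono (Subset.trans ?_ hB))
    rintro _ ⟨a, ⟨w, hw, h2⟩, rfl⟩
    refine ⟨σ g w, ⟨w, hw, rfl⟩, ?_⟩
    change ‖x (g * a) - σ g w‖ ≤ δ * ‖x (g * a)‖
    have h3 : ‖x a‖ ≤ ‖σ g⁻¹‖ * ‖x (g * a)‖ := by
      conv_lhs => rw [← hinv g (x a), ← hxm]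
      exact (σ g⁻¹).le_opNorm _
    have h4 : δ = δ / (‖σ g‖ * ‖σ g⁻¹‖ + 1) * (‖σ g‖ * ‖σ g⁻¹‖ + 1) := by field_simp
    calc ‖x (g * a) - σ g w‖ = ‖σ g (x a - w)‖ := by rw [hxm, map_sub]
      _ ≤ ‖σ g‖ * (δ / (‖σ g‖ * ‖σ g⁻¹‖ + 1) * (‖σ g⁻¹‖ * ‖x (g * a)‖)) :=
        ((σ g).le_opNorm _).trans (mul_le_mul_of_nonneg_left
          (h2.trans (mul_le_mul_of_nonneg_left h3 hp.le)) (norm_nonneg _))
      _ ≤ δ * ‖x (g * a)‖ := by
        conv_rhs => rw [h4]
        have := mul_nonneg hp.le (norm_nonneg (x (g * a)))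
        nlinarith
  -- a singular limit
  obtain ⟨W₀, hW₀, hW₀'⟩ : ∃ W : Submodule k V, W ≠ ⊤ ∧ 0 < m W := by
    have hne : (M.F ⊓ comap (fun g => ‖σ g‖) atTop).NeBot := by
      rw [inf_neBot_iff]
      intro A hA B ⟨B', hB', hB⟩
      obtain ⟨C, hC⟩ := mem_atTop_sets.1 hB'
      obtain ⟨g, g1, g2⟩ := ((hcon C).and_eventually hA).exists
      exact ⟨g, g2, hB (hC _ g1.le)⟩
    obtain ⟨U, hU⟩ := exists_ultrafilter_le (M.F ⊓ comap (fun g => ‖σ g‖) atTop)
    have hU1 : (U : Filter L) ≤ M.F := hU.trans inf_le_left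
    have hU2 : Tendsto (fun g => ‖σ g‖) U atTop := tendsto_iff_comap.2 (hU.trans inf_le_right)
    obtain ⟨c, hc⟩ := NormedField.exists_one_lt_norm k
    have hσ : ∀ g, σ g ≠ 0 := fun g h => hv₀ (by rw [← hinv g v₀, h]; simp)
    choose d d0 d1 d2 _ using fun g => rescale_to_shell hc one_pos (hσ g)
    have : ProperSpace (V →L[k] V) := FiniteDimensional.proper k _
    obtain ⟨π, -, hπ⟩ := (isCompact_closedBall (0 : V →L[k] V) 1).ultrafilter_le_nhds
      (U.map fun g => d g • σ g)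
      (le_principal_iff.2 (mem_map.2 (univ_mem' fun g => mem_closedBall_zero_iff.2 (d1 g).le)))
    have hπ' : Tendsto (fun g => d g • σ g) U (𝓝 π) := hπ
    have hπ0 : π ≠ 0 := norm_pos_iff.1 ((by positivity : 0 < 1 / ‖c‖).trans_le
      (ge_of_tendsto' hπ'.norm d2))
    have hd : Tendsto d U (𝓝 0) := by
      rw [tendsto_zero_iff_norm_tendsto_zero]
      refine squeeze_zero (fun _ => norm_nonneg _) (fun g => ?_) hU2.inv_tendsto_atTop
      have h1 := d1 g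
      rw [norm_smul] at h1
      rw [Pi.inv_apply, ← one_div, le_div_iff₀ (norm_pos_iff.2 (hσ g))]
      exact h1.le
    have hdet0 : LinearMap.det (π : V →ₗ[k] V) = 0 := by
      have h1 := (ContinuousLinearMap.continuous_det.tendsto π).comp hπ'
      have h2 := hd.pow (finrank k V)
      rw [zero_pow finrank_pos.ne'] at h2
      refine tendsto_nhds_unique h1 (h2.congr fun g => ?_)
      change _ = LinearMap.det (d g • (σ g : V →ₗ[k] V))
      rw [LinearMap.det_smul]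
      exact (mul_one _).symm.trans (congrArg _ (hdet g).symm)
    have key : 1 ≤ m (LinearMap.ker (π : V →ₗ[k] V)) + m (LinearMap.range (π : V →ₗ[k] V)) := by
      rw [hm, hm]
      refine M.le_add fun A ⟨δ₁, hδ₁, hA⟩ B ⟨δ₂, hδ₂, hB⟩ => le_of_forall_pos_le_add fun η hη => ?_
      obtain ⟨C, hC, hs⟩ := sec (π : V →ₗ[k] V)
      have hp : 0 < δ₂ / (1 + δ₂) * δ₁ / C := by positivity
      obtain ⟨g, g1, g2⟩ := (((M.ai η hη).filter_mono hU1).and
        ((tendsto_iff_norm_sub_tendsto_zero.1 hπ').eventually (ge_mem_nhds hp))).exists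
      have h1 : g • Aᶜ ⊆ B := by
        rintro _ ⟨a, ha, rfl⟩
        obtain ⟨w, hw, h2⟩ := hs (x a)
        have h3 : δ₁ * ‖x a‖ ≤ C * ‖π (x a)‖ := by
          by_contra h3
          exact ha (hA ⟨w, hw, h2.trans (not_le.1 h3).le⟩)
        refine hB ⟨(d g)⁻¹ • π (x a), Submodule.smul_mem _ _ ⟨x a, rfl⟩, ?_⟩
        change ‖x (g * a) - _‖ ≤ δ₂ * ‖x (g * a)‖
        obtain ⟨e, he⟩ : ∃ e, e = (d g • σ g - π) (x a) := ⟨_, rfl⟩
        have h4 : ‖e‖ ≤ δ₂ / (1 + δ₂) * ‖π (x a)‖ := by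
          calc ‖e‖ ≤ δ₂ / (1 + δ₂) * δ₁ / C * ‖x a‖ := he ▸ ((d g • σ g - π).le_opNorm _).trans
                (mul_le_mul_of_nonneg_right g2 (norm_nonneg _))
            _ = δ₂ / (1 + δ₂) / C * (δ₁ * ‖x a‖) := by ring
            _ ≤ δ₂ / (1 + δ₂) / C * (C * ‖π (x a)‖) := mul_le_mul_of_nonneg_left h3 (by positivity)
            _ = _ := by field_simp
        have h5 : d g • x (g * a) = π (x a) + e := by simp [he, hxm]
        have h6 : x (g * a) - (d g)⁻¹ • π (x a) = (d g)⁻¹ • e := by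
          rw [sub_eq_iff_eq_add', ← smul_add, ← h5, inv_smul_smul₀ (d0 g)]
        have h7 : ‖π (x a)‖ ≤ ‖d g‖ * ‖x (g * a)‖ + ‖e‖ := by
          rw [← norm_smul, h5]
          simpa using norm_sub_le (π (x a) + e) e
        rw [h6, norm_smul, norm_inv, inv_mul_le_iff₀ (norm_pos_iff.2 (d0 g))]
        rw [div_mul_eq_mul_div, le_div_iff₀ (by positivity)] at h4
        nlinarith
      have h2 := M.add A Aᶜ disjoint_compl_right
      rw [union_compl_self, M.total] at h2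
      linarith [g1 Aᶜ, M.mono h1]
    by_contra h
    push Not at h
    have h1 := h (LinearMap.ker (π : V →ₗ[k] V)) fun h1 =>
      hπ0 (ContinuousLinearMap.coe_injective (LinearMap.ker_eq_top.1 h1))
    have h2 := h _ (LinearMap.range_lt_top_of_det_eq_zero hdet0).ne
    linarith
  -- minimal dimension
  obtain ⟨W₁, ⟨hW₁, hW₁'⟩, hmin⟩ := exists_minimalFor_of_wellFoundedLT
    (fun W : Submodule k V => W ≠ ⊤ ∧ 0 < m W) (fun W => finrank k W) ⟨W₀, hW₀, hW₀'⟩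
  have htop : ∀ W : Submodule k V, finrank k W = finrank k W₁ → W ≠ ⊤ := fun W h h1 =>
    hW₁ (Submodule.eq_top_of_finrank_eq (by rw [← h, h1, finrank_top]))
  have hfin : {W : Submodule k V | finrank k W = finrank k W₁ ∧ m W₁ / 2 ≤ m W}.Finite := by
    by_contra hinf
    obtain ⟨N, hN⟩ := exists_nat_gt (1 / (m W₁ / 2))
    obtain ⟨T, hT, hc⟩ := Set.Infinite.exists_subset_card_eq hinf N
    have h1 := M.sum_le (nf x) T fun W hW W' hW' hne => by
      refine (M.ms_mono (nf_inf x W W')).trans ?_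
      rw [← hm]
      by_contra h2
      have h3 : W ⊓ W' < W := inf_le_left.lt_of_ne fun h3 => hne
        (Submodule.eq_of_le_of_finrank_eq (inf_eq_left.1 h3) ((hT hW).1.trans (hT hW').1.symm))
      have h4 := Submodule.finrank_lt_finrank_of_lt h3
      rw [(hT hW).1] at h4
      exact absurd (hmin ⟨ne_top_of_lt h3, not_le.1 h2⟩ h4.le) (not_le.2 h4)
    have h2 := Finset.card_nsmul_le_sum T (fun W => M.ms (nf x W)) (m W₁ / 2)
      fun W hW => hm W ▸ (hT hW).2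
    rw [hc, nsmul_eq_mul] at h2
    rw [div_lt_iff₀ (by linarith)] at hN
    linarith
  obtain ⟨W₂, hW₂, hmax⟩ := Set.exists_max_image _ m hfin ⟨W₁, rfl, by linarith⟩
  have h12 := hmax W₁ ⟨rfl, by linarith⟩
  obtain ⟨γ, hγ, γ1, γ2⟩ : ∃ γ > (0 : ℝ), γ ≤ m W₁ / 2 ∧
      ∀ W ∈ {W : Submodule k V | finrank k W = finrank k W₁ ∧ m W₁ / 2 ≤ m W},
        m W₂ - γ ≤ m W → m W = m W₂ := by
    have h1 : ∀ᶠ γ in 𝓝[>] (0 : ℝ),
        ∀ W ∈ {W : Submodule k V | finrank k W = finrank k W₁ ∧ m W₁ / 2 ≤ m W},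
        m W₂ - γ ≤ m W → m W = m W₂ := (eventually_all_finite hfin).2 fun W hW => by
      rcases (hmax W hW).eq_or_lt with h | h
      · exact Eventually.of_forall fun _ _ => h
      · filter_upwards [(gt_mem_nhds (sub_pos.2 h)).filter_mono nhdsWithin_le_nhds] with γ h2 h3
        linarith
    obtain ⟨γ, a, b, c⟩ := (eventually_mem_nhdsWithin.and
      (((ge_mem_nhds (half_pos hW₁')).filter_mono nhdsWithin_le_nhds).and h1)).exists
    exact ⟨γ, a, b, c⟩
  obtain ⟨H, hH, hH'⟩ := M.fi_of_inv (fun g (W : Submodule k V) => W.map (σ g : V →ₗ[k] V))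
    (fun W => by rw [map_one]; exact Submodule.map_id W)
    (fun g h W => by rw [map_mul, ← Submodule.map_comp]; rfl)
    (T := {W | finrank k W = finrank k W₁ ∧ m W = m W₂})
    (hfin.subset fun W hW => ⟨hW.1, by linarith [hW.2]⟩) ⟨hW₂.1, rfl⟩ (m_map γ hγ) (by
      intro g hg W hW
      have h1 : finrank k (W.map (σ g : V →ₗ[k] V)) = finrank k W₁ :=
        (Submodule.equivMapOfInjective (σ g : V →ₗ[k] V)
          (Function.LeftInverse.injective (hinv g)) W).finrank_eq.symm.trans hW.1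
      have h2 := hg W
      rw [hW.2] at h2
      exact ⟨h1, γ2 _ ⟨h1, by linarith⟩ h2⟩)
  rcases hirr H hH W₂ fun g hg v hv => (hH' g).1 hg ▸ ⟨v, hv, rfl⟩ with h | h
  · rw [h] at h12
    linarith
  · exact htop W₂ hW₂.1 h

theorem stFU : StFU := by
  intro k _ _ L _ M n s hdet hstr
  let e : Matrix (Fin n) (Fin n) k ≃ₐ[k] ((Fin n → k) →L[k] (Fin n → k)) :=
    Matrix.toLinAlgEquiv'.trans (Module.End.toContinuousLinearMap (Fin n → k))
  have he : ∀ A v, e A v = A.mulVec v := fun A v => rfl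
  obtain ⟨C, hC⟩ := fu_abs M (e.toMulEquiv.toMonoidHom.comp s)
    (fun g => (LinearMap.det_toLin' (s g)).trans (hdet g)) (by
      intro H hH W hW
      by_contra hcon
      push Not at hcon
      obtain ⟨v, hv, hv0⟩ := (Submodule.ne_bot_iff W).1 hcon.1
      have h1 : ∀ A ∈ Submodule.span k (s '' (H : Set L)), A.mulVec v ∈ W := by
        intro A hA
        induction hA using Submodule.span_induction with
        | mem A hA =>
          obtain ⟨g, hg, rfl⟩ := hA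
          exact hW g hg v hv
        | zero => simp
        | add A B _ _ hA hB => rw [Matrix.add_mulVec]; exact W.add_mem hA hB
        | smul c A _ hA => rw [Matrix.smul_mulVec]; exact W.smul_mem c hA
      refine hcon.2 (eq_top_iff.2 fun w _ => ?_)
      obtain ⟨f, hf⟩ := Module.Projective.exists_dual_eq_one k hv0
      have h2 := h1 (LinearMap.toMatrix' (f.smulRight w)) (hstr H hH ▸ Submodule.mem_top)
      rwa [LinearMap.toMatrix'_mulVec, LinearMap.smulRight_apply, hf, one_smul] at h2)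
  refine ⟨C, hC.mono fun g hg a b => ?_⟩
  have h1 : s g a b = e (s g) (Pi.single b 1) a := by simp [he]
  rw [h1]
  refine (norm_le_pi_norm _ a).trans (((e (s g)).le_opNorm _).trans ?_)
  rw [Pi.norm_single, norm_one, mul_one]
  exact hg

end Vale.Agent.P284Z.GI
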