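import Vale.Agent.P284Z.I.Rad

/-!
# P284Z, block I: the assembly
-/

open Set
open scoped commutatorElement

noncomputable section

namespace Vale.Agent.P284Z.GI

variable {Γ : Type} [Group Γ]

theorem inj_of_cl (hA : NoAb Γ) {S : LS Γ} {M : Type} [Monoid M] (ρ : Γ →* M)
    (hρ : ∀ a, ρ a = 1 → ∃ e > 0, ∀ x ∈ Nb S e, a * x = x * a) {L : Subgroup Γ} (hL : Cl S L) :
    ∀ a ∈ L, ρ a = 1 → a = 1 := by
  have hn := hL.normal
  have h : L ⊓ ρ.ker = ⊥ := hA _ inferInstance fun a ha y hy => by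
    obtain ⟨e, he, h1⟩ := hρ a ha.2
    have h2 : Subgroup.closure ((L : Set Γ) ∩ Nb S e) ≤ Subgroup.centralizer {a} :=
      (Subgroup.closure_le _).2 fun x hx =>
        Subgroup.mem_centralizer_singleton_iff.2 (h1 x hx.2).symm
    exact (Subgroup.mem_centralizer_singleton_iff.1 (h2 (hL.gen e he hy.1))).symm
  exact fun a ha h1 => Subgroup.mem_bot.1 (h ▸ Subgroup.mem_inf.2 ⟨ha, h1⟩)

theorem bot_of_derived (hA : NoAb Γ) (D : Subgroup Γ) [D.Normal] (N : ℕ)
    (h : derivedSeries D N = ⊥) : D = ⊥ := by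
  induction N with
  | zero =>
    refine (Subgroup.eq_bot_iff_forall _).2 fun x hx => ?_
    have h1 : (⟨x, hx⟩ : D) ∈ derivedSeries D 0 := Subgroup.mem_top _
    rw [h] at h1
    exact congrArg Subtype.val (Subgroup.mem_bot.1 h1)
  | succ k ih =>
    refine ih ((Subgroup.map_eq_bot_iff_of_injective _ D.subtype_injective).1
      (hA _ inferInstance ?_))
    rintro _ ⟨x, hx, rfl⟩ _ ⟨y, hy, rfl⟩
    have h1 : ⁅x, y⁆ ∈ derivedSeries D (k + 1) := Subgroup.commutator_mem_commutator hx hy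
    rw [h, Subgroup.mem_bot, commutatorElement_eq_one_iff_mul_comm] at h1
    exact congrArg Subtype.val h1

theorem exists_entries (hfg : Group.FG Γ) {d : ℕ} (ρ : Γ →* Matrix (Fin d) (Fin d) ℂ) :
    ∃ T : Set ℂ, T.Finite ∧ ∀ g a b, ρ g a b ∈ IntermediateField.adjoin ℚ T := by
  obtain ⟨G, hG⟩ := (Group.fg_iff_monoid_fg.1 hfg).fg_top
  refine ⟨⋃ g ∈ G, range fun p : Fin d × Fin d => ρ g p.1 p.2,
    G.finite_toSet.biUnion fun _ _ => finite_range _, fun g => ?_⟩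
  have hg : g ∈ Submonoid.closure (G : Set Γ) := hG ▸ Submonoid.mem_top g
  induction hg using Submonoid.closure_induction with
  | mem x hx =>
    exact fun a b => IntermediateField.subset_adjoin _ _ (mem_biUnion hx ⟨(a, b), rfl⟩)
  | one =>
    intro a b
    rw [map_one, Matrix.one_apply]
    split_ifs
    · exact one_mem _
    · exact zero_mem _
  | mul x y _ _ hx hy =>
    intro a b
    rw [map_mul, Matrix.mul_apply]
    exact sum_mem fun c _ => mul_mem (hx a c) (hy c b)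

theorem entries_map {d n : ℕ} (ψ : Matrix (Fin d) (Fin d) ℂ →ₗ[ℂ] Matrix (Fin n) (Fin n) ℂ)
    {T : Set ℂ} (hT : T.Finite) : ∃ T' : Set ℂ, T'.Finite ∧ ∀ M : Matrix (Fin d) (Fin d) ℂ,
      (∀ a b, M a b ∈ IntermediateField.adjoin ℚ T) →
      ∀ a b, ψ M a b ∈ IntermediateField.adjoin ℚ T' := by
  refine ⟨T ∪ range fun p : (Fin d × Fin d) × Fin n × Fin n =>
    ψ (Matrix.single p.1.1 p.1.2 1) p.2.1 p.2.2, hT.union (finite_range _), fun M hM a b => ?_⟩
  rw [Matrix.matrix_eq_sum_single M, map_sum, Matrix.sum_apply]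
  refine sum_mem fun p _ => ?_
  rw [map_sum, Matrix.sum_apply]
  refine sum_mem fun q _ => ?_
  have e : Matrix.single p q (M p q) = M p q • Matrix.single p q (1 : ℂ) := by
    rw [Matrix.smul_single, smul_eq_mul, mul_one]
  rw [e, map_smul, Matrix.smul_apply, smul_eq_mul]
  exact mul_mem (IntermediateField.adjoin.mono _ _ _ subset_union_left (hM p q))
    (IntermediateField.subset_adjoin _ _ (Or.inr ⟨((p, q), a, b), rfl⟩))

theorem det_one {L : Subgroup Γ} (χ : L →* ℂ) {g : Γ} (hg : g ∈ ⁅L, L⁆) (hg' : g ∈ L) :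
    χ ⟨g, hg'⟩ = 1 := by
  have h : ⁅L, L⁆ ≤ χ.ker.map L.subtype := Subgroup.commutator_le.2 fun a ha b hb =>
    ⟨⁅(⟨a, ha⟩ : L), ⟨b, hb⟩⁆, Abelianization.commutator_subset_ker χ.toHomUnits
      (Subgroup.commutator_mem_commutator (Subgroup.mem_top _) (Subgroup.mem_top _)) |>
        congrArg Units.val, rfl⟩
  obtain ⟨x, hx, rfl⟩ := h hg
  exact hx

theorem stMain : StMain := by
  intro hAb hSep hSub hAd hMean hCore hRad Γ _ hfg hR S
  have hA := hAb Γ hR
  have hS := hSep Γ hR S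
  obtain ⟨⟨L₀, hL₀⟩, h2, h3⟩ := hSub Γ hA S hS
  obtain ⟨d, ρ₀, hρ₀⟩ := hAd Γ S hS
  let ρ : Γ →* Matrix (Fin d) (Fin d) ℂ :=
    (Complex.ofRealHom.mapMatrix : _ →+* _).toMonoidHom.comp ρ₀
  have hρ : ∀ a, ρ a = 1 → ∃ e > 0, ∀ x ∈ Nb S e, a * x = x * a := fun a ha =>
    hρ₀ a (Matrix.map_injective Complex.ofReal_injective
      (ha.trans (map_one (Complex.ofRealHom.mapMatrix : _ →+* _)).symm))
  clear_value ρ
  obtain ⟨T, hT, hT'⟩ := exists_entries hfg ρ
  let sp : Subgroup Γ → Submodule ℂ (Matrix (Fin d) (Fin d) ℂ) := fun L =>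
    Submodule.span ℂ (ρ '' L)
  obtain ⟨L, hL, hmin⟩ := (measure fun L => Module.finrank ℂ (sp L)).wf.has_min {L | Cl S L}
    ⟨L₀, hL₀⟩
  have hsp : ∀ D ≤ L, Cl S D → sp D = sp L := fun D hD hc =>
    Submodule.eq_of_le_of_finrank_le (Submodule.span_mono (image_mono hD)) (not_lt.1 (hmin D hc))
  let A := Algebra.adjoin ℂ (ρ '' L)
  have hAL : Subalgebra.toSubmodule A = sp L := Algebra.adjoin_eq_span_of_subset ℂ (by
    have : Submonoid.closure (ρ '' L) ≤ L.toSubmonoid.map ρ := Submonoid.closure_le.2 subset_rfl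
    exact fun x hx => Submodule.subset_span (this hx))
  obtain ⟨D, hD, hc⟩ := h2 L hL
  have hn := hL.normal
  have hDL : D ≤ L := hD.trans (Subgroup.commutator_le_left L L)
  let uL : L →* A := (ρ.comp L.subtype).codRestrict A.toSubmonoid fun g =>
    Algebra.subset_adjoin ⟨g.1, g.2, rfl⟩
  let u : D →* A := uL.comp (Subgroup.inclusion hDL)
  obtain ⟨m, n, φ, hφ, hφ'⟩ := hRad d A
  obtain ⟨M⟩ := hMean Γ S D hc
  obtain ⟨N, hN⟩ := hφ' D u fun g i => by
    obtain ⟨ψ, hψ⟩ := LinearMap.exists_extend (p := Subalgebra.toSubmodule A) (φ i).toLinearMap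
    have hψ' : ∀ x : A, ψ x.1 = φ i x := fun x => LinearMap.congr_fun hψ x
    obtain ⟨T', k1, k2⟩ := entries_map ψ hT
    refine hCore D M (n i) ((φ i : A →* _).comp u) T' k1 (fun g a b => ?_) (fun g => ?_)
      (fun H hH => ?_) g
    · have := k2 (ρ g) (hT' g) a b
      rwa [show ψ (ρ g) = φ i (u g) from hψ' (u g)] at this
    · exact det_one (Matrix.detMonoidHom.comp ((φ i).toRingHom.toMonoidHom.comp uL)) (hD g.2) (hDL g.2)
    · obtain ⟨D', k3, k4⟩ := h3 D hc H hH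
      have k5 := hsp D' (k3.trans ((Subgroup.map_subtype_le H).trans hDL)) k4
      refine eq_top_iff.2 fun y _ => ?_
      obtain ⟨x, rfl⟩ := hφ i y
      have k6 : x.1 ∈ sp D' := k5 ▸ hAL ▸ x.2
      have k7 := Submodule.mem_map_of_mem (f := ψ) k6
      rw [Submodule.map_span, hψ'] at k7
      refine Submodule.span_mono ?_ k7
      rintro _ ⟨_, ⟨g, hg, rfl⟩, rfl⟩
      obtain ⟨h, hh, rfl⟩ := k3 hg
      exact ⟨h, hh, (hψ' (u h)).symm⟩
  have hn' := hc.normal
  refine hc.ne (bot_of_derived hA D N ((Subgroup.eq_bot_iff_forall _).2 fun g hg => ?_))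
  exact Subtype.ext (inj_of_cl hA ρ hρ hc g.1 g.2 (congrArg Subtype.val (hN g hg)))

end Vale.Agent.P284Z.GI
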