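import Vale.Agent.P284Z.I.Sub
import Vale.Agent.P284Z.R.Amen

/-!
# P284Z, block I: the steps Ab, Sep and Mean
-/

open scoped Topology Pointwise
open Filter Set

noncomputable section

namespace Vale.Agent.P284Z.GI

open Vale.Agent.P284Z.Am

theorem stAb : StAb := fun _ _ hR A hA hc =>
  hR A hA (folner_comm fun a b => Subtype.ext (hc a a.2 b b.2))

/-- the small elements with trivial jet -/
def zer {Γ : Type} [Group Γ] (S : LS Γ) : Subgroup Γ where
  carrier := {g | g ∈ S.N ∧ S.J g = 0}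
  one_mem' := S.one
  mul_mem' := fun {g h} hg hh => by
    have h1 := S.mul g hg.1 h hh.1 (by simpa [hg.2] using S.ε₀_pos) (by simpa [hh.2] using S.ε₀_pos)
    exact ⟨h1.1, by simpa [hg.2, hh.2] using h1.2⟩
  inv_mem' := fun {g} hg => by
    have h1 := S.inv g hg.1 (by simpa [hg.2] using S.ε₀_pos)
    exact ⟨h1.1, by simpa [hg.2] using h1.2⟩

theorem stSep : StSep := fun Γ _ hR S g hg hJ => by
  have hn : (zer S).Normal := ⟨fun x hx a => by
    obtain ⟨ε, hε, K', h⟩ := S.conj a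
    have h1 := h x hx.1 (by simpa [hx.2] using hε)
    exact ⟨h1.1, by simpa [hx.2] using h1.2⟩⟩
  have hF : Vale.Agent.P284.H894.G.Folner (zer S) := by
    refine folner_of_reiter_sub _ fun T hT hTZ η hη => ?_
    obtain ⟨ε, hε, h⟩ := S.reiter η hη
    have h1 : ∀ᶠ j in atTop, ∀ s ∈ T, ∑' h, |S.m j (s⁻¹ * h) - S.m j h| ≤ η :=
      (eventually_all_finite hT).2 fun s hs => h s (hTZ hs).1 (by simpa [(hTZ hs).2] using hε)
    obtain ⟨j, hj⟩ := h1.exists
    exact ⟨S.m j, S.m_nonneg j, S.m_sum j, hj⟩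
  have h2 : g ∈ zer S := ⟨hg, hJ⟩
  rw [hR _ hn hF] at h2
  exact h2

/-- an equivariant retraction to a subgroup -/
theorem exists_retr {G : Type*} [Group G] (H : Subgroup G) :
    ∃ r : G → H, ∀ (s : H) (g : G), r (s * g) = s * r g := by
  obtain ⟨c, hc⟩ : ∃ c : G → G, ∀ g, c g = (Quotient.mk (QuotientGroup.rightRel H) g).out :=
    ⟨_, fun _ => rfl⟩
  have h1 : ∀ g, g * (c g)⁻¹ ∈ H := fun g => by
    rw [hc]
    exact QuotientGroup.rightRel_apply.1 (Quotient.mk_out (s := QuotientGroup.rightRel H) g)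
  have h2 : ∀ (s : H) g, c (s * g) = c g := fun s g => by
    rw [hc, hc, Quotient.sound (QuotientGroup.rightRel_apply.2 (by simp) :
      QuotientGroup.rightRel H (s * g) g)]
  refine ⟨fun g => ⟨g * (c g)⁻¹, h1 g⟩, fun s g => Subtype.ext ?_⟩
  change (s : G) * g * (c (s * g))⁻¹ = s * (g * (c g)⁻¹)
  rw [h2, mul_assoc]

/-- the mass of a translate -/
theorem mass_smul {L : Type*} [Group L] {p : L → ℝ} (hp : Summable p) (g : L) (A : Set L) :
    ∑' x, A.indicator p x - ∑' x, |p (g⁻¹ * x) - p x| ≤ ∑' x, (g • A).indicator p x := by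
  have h1 : Summable fun x => p (g⁻¹ * x) := (Equiv.mulLeft g⁻¹).summable_iff.2 hp
  have h2 : ∑' x, A.indicator p x = ∑' x, (g • A).indicator (fun x => p (g⁻¹ * x)) x := by
    rw [← (Equiv.mulLeft g⁻¹).tsum_eq]
    refine tsum_congr fun x => ?_
    by_cases hx : g⁻¹ * x ∈ A
    · rw [Equiv.coe_mulLeft, indicator_of_mem hx,
        indicator_of_mem (mem_smul_set_iff_inv_smul_mem.2 hx)]
    · rw [Equiv.coe_mulLeft, indicator_of_notMem hx,
        indicator_of_notMem fun h => hx (mem_smul_set_iff_inv_smul_mem.1 h)]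
  rw [h2, sub_le_iff_le_add, ← (hp.indicator _).tsum_add (h1.sub hp).abs]
  refine (h1.indicator _).tsum_le_tsum (fun x => ?_) ((hp.indicator _).add (h1.sub hp).abs)
  by_cases hx : x ∈ g • A
  · rw [indicator_of_mem hx, indicator_of_mem hx]
    linarith [le_abs_self (p (g⁻¹ * x) - p x)]
  · rw [indicator_of_notMem hx, indicator_of_notMem hx, zero_add]
    exact abs_nonneg _

/-- the limit of a sequence of probabilities along an ultrafilter -/
theorem exists_mean {L : Type*} [Group L] (p : ℕ → L → ℝ) (h0 : ∀ j x, 0 ≤ p j x)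
    (h1 : ∀ j, HasSum (p j) 1) : ∃ μ : Set L → ℝ, (∀ A, 0 ≤ μ A) ∧ μ univ = 1 ∧
      (∀ A B, Disjoint A B → μ (A ∪ B) = μ A + μ B) ∧
      ∀ (g : L) (η : ℝ), (∀ᶠ j in atTop, ∑' x, |p j (g⁻¹ * x) - p j x| ≤ η) →
        ∀ A, μ A - η ≤ μ (g • A) := by
  obtain ⟨U, hU⟩ : ∃ U : Ultrafilter ℕ, (U : Filter ℕ) ≤ atTop := exists_ultrafilter_le atTop
  have h2 : ∀ (A : Set L) j, ∑' x, A.indicator (p j) x ∈ Icc (0 : ℝ) 1 := fun A j =>
    ⟨tsum_nonneg fun x => indicator_nonneg (fun y _ => h0 j y) x, by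
      rw [← (h1 j).tsum_eq]
      exact ((h1 j).summable.indicator _).tsum_le_tsum
        (fun x => indicator_le_self' (fun y _ => h0 j y) x) (h1 j).summable⟩
  have h3 : ∀ A : Set L, ∃ c : ℝ, Tendsto (fun j => ∑' x, A.indicator (p j) x) U (𝓝 c) := fun A => by
    obtain ⟨c, -, hc⟩ := isCompact_Icc.ultrafilter_le_nhds
      (U.map fun j => ∑' x, A.indicator (p j) x) (by
        rw [Ultrafilter.coe_map, le_principal_iff, mem_map]
        exact univ_mem' fun j => h2 A j)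
    exact ⟨c, hc⟩
  choose μ hμ using h3
  refine ⟨μ, fun A => ge_of_tendsto' (hμ A) fun j => (h2 A j).1, ?_, fun A B hAB => ?_,
    fun g η hg A => ?_⟩
  · refine tendsto_nhds_unique (hμ univ) ?_
    simp only [indicator_univ, (h1 _).tsum_eq]
    exact tendsto_const_nhds
  · refine tendsto_nhds_unique (hμ (A ∪ B)) (((hμ A).add (hμ B)).congr fun j => ?_)
    rw [← ((h1 j).summable.indicator _).tsum_add ((h1 j).summable.indicator _)]
    exact tsum_congr fun x => (indicator_union_of_disjoint hAB (p j) ▸ rfl)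
  · refine le_of_tendsto_of_tendsto ((hμ A).sub_const η) (hμ (g • A)) ?_
    filter_upwards [hU hg] with j hj
    linarith [mass_smul (h1 j).summable g A]

theorem stMean : StMean := fun Γ _ S L hL => by
  obtain ⟨r, hr⟩ := exists_retr L
  obtain ⟨μ, a1, a2, a3, a4⟩ := exists_mean (fun j => push r (S.m j))
    (fun j => push_nonneg r (S.m_nonneg j)) fun j => hasSum_push r (S.m_sum j)
  obtain ⟨F, hF⟩ : ∃ F : Filter L, ∀ U, U ∈ F ↔ ∃ ε > 0, ∀ g : L, (g : Γ) ∈ Nb S ε → g ∈ U :=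
    ⟨{ sets := {U | ∃ ε > 0, ∀ g : L, (g : Γ) ∈ Nb S ε → g ∈ U}
       univ_sets := ⟨1, one_pos, fun _ _ => mem_univ _⟩
       sets_of_superset := fun ⟨ε, hε, h⟩ h' => ⟨ε, hε, fun g hg => h' (h g hg)⟩
       inter_sets := fun ⟨ε, hε, h⟩ ⟨δ, hδ, h'⟩ => ⟨min ε δ, lt_min hε hδ, fun g hg =>
         ⟨h g ⟨hg.1, hg.2.trans_le (min_le_left _ _)⟩,
          h' g ⟨hg.1, hg.2.trans_le (min_le_right _ _)⟩⟩⟩ }, fun _ => Iff.rfl⟩
  have he := (loc S).ε_pos
  refine ⟨{
    F := F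
    one := fun U hU => ?_
    mul := fun U hU => ?_
    inv := fun U hU => ?_
    gen := fun U hU => ?_
    μ := μ
    nonneg := a1
    total := a2
    add := a3
    ai := fun η hη => ?_ }⟩
  · obtain ⟨ε, hε, h⟩ := (hF U).1 hU
    exact h 1 ⟨S.one.1, by simpa [S.one.2] using hε⟩
  · obtain ⟨ε, hε, h⟩ := (hF U).1 hU
    refine ⟨{g | (g : Γ) ∈ Nb S (min (loc S).ε (ε / 3))},
      (hF _).2 ⟨_, lt_min he (by positivity), fun g hg => hg⟩, fun g hg k hk => h _ ?_⟩
    have h1 := lt_min_iff.1 hg.2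
    have h2 := lt_min_iff.1 hk.2
    have h3 := (loc S).mul_le hg.1 hk.1 h1.1 h2.1
    exact ⟨((loc S).mul g hg.1 k hk.1 h1.1 h2.1).1, lt_of_le_of_lt h3 (by
      change ‖S.J g‖ + 2 * ‖S.J k‖ < ε
      linarith [h1.2, h2.2])⟩
  · obtain ⟨ε, hε, h⟩ := (hF U).1 hU
    refine (hF _).2 ⟨min (loc S).ε (ε / 2), lt_min he (by positivity), fun g hg => h _ ?_⟩
    have h1 := lt_min_iff.1 hg.2
    have h3 := (loc S).inv_le hg.1 h1.1
    exact ⟨((loc S).inv g hg.1 h1.1).1, lt_of_le_of_lt h3 (by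
      change 2 * ‖S.J g‖ < ε
      linarith [h1.2])⟩
  · obtain ⟨ε, hε, h⟩ := (hF U).1 hU
    rw [eq_top_iff]
    intro x _
    have h1 : Subgroup.closure ((L : Set Γ) ∩ Nb S ε) ≤ (Subgroup.closure U).map L.subtype := by
      rw [Subgroup.closure_le]
      exact fun y hy => ⟨⟨y, hy.1⟩, Subgroup.subset_closure (h _ hy.2), rfl⟩
    obtain ⟨y, hy, hxy⟩ := h1 (hL.gen ε hε x.2)
    exact (Subtype.ext hxy : y = x) ▸ hy
  · obtain ⟨ε, hε, h⟩ := S.reiter η hη
    refine (hF _).2 ⟨ε, hε, fun g hg => a4 g η ?_⟩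
    filter_upwards [h g hg.1 hg.2] with j hj
    simp only [push_shift r (S.m j) (Equiv.mulLeft (g : Γ)) (hr g)]
    exact (push_diff r ((Equiv.mulLeft (g : Γ)).symm.summable_iff.2 (S.m_sum j).summable)
      (S.m_sum j).summable).trans hj

end Vale.Agent.P284Z.GI
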