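import Vale.Agent.P284Z.I.Arch

/-!
# P284Z, block I: the traces are algebraic integers
-/

open Set Filter Polynomial

noncomputable section

namespace Vale.Agent.P284Z.GI

open Vale.Agent.P260.F

/-- transcendental elements can be made large -/
theorem isAlgebraic_of_le {K L : Type} [Field K] [CharZero K] [Countable K] [NormedField L]
    [CharZero L] [IsAlgClosed L] (hL : Uncountable L) (q : ℚ) (hq : 1 < ‖(q : L)‖) (t : K)
    (h : ∀ σ : K →+* L, ‖σ t‖ ≤ 1) : IsAlgebraic ℚ t := by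
  by_contra ht
  have ht' : Transcendental ℚ t := ht
  obtain ⟨τ, hτ⟩ : ∃ τ : L, Transcendental ℚ τ := by
    by_contra hcon
    push Not at hcon
    exact not_countable_iff.2 hL (countable_univ_iff.1
      ((Algebraic.countable ℚ L).mono fun x _ => not_not.1 (hcon x)))
  have hτ0 : 0 < ‖τ‖ := norm_pos_iff.2 fun h0 => hτ (h0 ▸ isAlgebraic_zero)
  obtain ⟨m, hm⟩ := pow_unbounded_of_one_lt ‖τ‖⁻¹ hq
  have hq0 : (q : L) ^ m ≠ 0 := pow_ne_zero _ (norm_pos_iff.1 (one_pos.trans hq))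
  have h1 : Transcendental ℚ ((q : L) ^ m * τ) := fun hal => hτ (by
    have h3 : IsAlgebraic ℚ (((q : L) ^ m)⁻¹) := by
      simpa using isAlgebraic_algebraMap (R := ℚ) (A := L) ((q ^ m)⁻¹)
    have h4 := h3.mul hal
    rwa [inv_mul_cancel_left₀ hq0] at h4)
  obtain ⟨σ, hσ⟩ := exists_ext (R := ℚ[X]) (K := K) (L := L) hL (aeval t).toRingHom
    (transcendental_iff_injective.1 ht') (aeval _).toRingHom (transcendental_iff_injective.1 h1)
  have h2 := h σ
  rw [show σ t = (q : L) ^ m * τ by simpa using hσ X, norm_mul, norm_pow] at h2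
  rw [inv_lt_iff_one_lt_mul₀ hτ0] at hm
  linarith

theorem root_le {L : Type} [NormedField L] {n : ℕ} {A : Matrix (Fin n) (Fin n) L} {C : ℝ}
    (h : ∀ (m : ℕ) a b, ‖(A ^ m) a b‖ ≤ C) {r : L} (hr : A.charpoly.IsRoot r) : ‖r‖ ≤ 1 := by
  rw [IsRoot.def, Matrix.eval_charpoly] at hr
  obtain ⟨v, hv, h1⟩ := Matrix.exists_mulVec_eq_zero_iff.2 hr
  have h2 : A.mulVec v = r • v := by
    rw [Matrix.sub_mulVec, sub_eq_zero] at h1
    rw [← h1]
    ext i
    simp [Matrix.scalar_apply, Matrix.mulVec_diagonal]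
  have h3 : ∀ m : ℕ, (A ^ m).mulVec v = r ^ m • v := fun m => by
    induction m with
    | zero => simp
    | succ m ih => rw [pow_succ, ← Matrix.mulVec_mulVec, h2, Matrix.mulVec_smul, ih, smul_smul,
        pow_succ']
  obtain ⟨i, hi⟩ := Function.ne_iff.1 hv
  have hi' : 0 < ‖v i‖ := norm_pos_iff.2 hi
  by_contra h4
  obtain ⟨m, hm⟩ := pow_unbounded_of_one_lt ((∑ j, C * ‖v j‖) / ‖v i‖) (not_le.1 h4)
  rw [div_lt_iff₀ hi', ← norm_pow, ← norm_mul, ← smul_eq_mul, ← Pi.smul_apply, ← h3] at hm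
  rw [Matrix.mulVec, dotProduct] at hm
  refine hm.not_ge ((norm_sum_le _ _).trans (Finset.sum_le_sum fun j _ => ?_))
  rw [norm_mul]
  exact mul_le_mul_of_nonneg_right (h m i j) (norm_nonneg _)

theorem trace_le {L : Type} [NormedField L] [IsUltrametricDist L] [IsAlgClosed L] {n : ℕ}
    {A : Matrix (Fin n) (Fin n) L} {C : ℝ} (h : ∀ (m : ℕ) a b, ‖(A ^ m) a b‖ ≤ C) :
    ‖A.trace‖ ≤ 1 := by
  rw [Matrix.trace_eq_sum_roots_charpoly]
  refine Multiset.sum_induction (fun x => ‖x‖ ≤ 1) _ ?_ ?_ ?_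
  · exact fun a b ha hb => (IsUltrametricDist.norm_add_le_max a b).trans (max_le ha hb)
  · simp
  · exact fun r hr => root_le h (isRoot_of_mem_roots hr)

/-- change of the field of coefficients -/
def mapS {L K K' : Type} [Group L] [Field K] [Field K'] {n : ℕ} (σ : K →+* K')
    (s : L →* Matrix (Fin n) (Fin n) K) : L →* Matrix (Fin n) (Fin n) K' :=
  (σ.mapMatrix (m := Fin n)).toMonoidHom.comp s

section

variable {L K K' : Type} [Group L] [Field K] [Field K'] {n : ℕ} (σ : K →+* K')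
  {s : L →* Matrix (Fin n) (Fin n) K}

theorem mapS_det (h : ∀ g, (s g).det = 1) (g : L) : (mapS σ s g).det = 1 :=
  (σ.map_det (s g)).symm.trans (by rw [h, map_one])

theorem Str.mapS (h : Str s) : Str (mapS σ s) := fun H hH => by
  have h1 := span_map_top σ _ (h H hH)
  rwa [image_image] at h1

end

theorem padic_le (hFU : StFU) (hNA : StNA) {F : Type} [Field F] [CharZero F]
    [Algebra.EssFiniteType ℚ F] {L : Type} [Group L] (M : Sm L) {n : ℕ}
    {s : L →* Matrix (Fin n) (Fin n) F} (hd : ∀ g, (s g).det = 1) (hs : Str s) (g : L) (p : ℕ)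
    [Fact p.Prime] (σ : F →+* PadicAlgCl p) : ‖σ (s g).trace‖ ≤ 1 := by
  obtain ⟨T, hT⟩ := IntermediateField.fg_top ℚ F
  let k := IntermediateField.adjoin ℚ_[p] (σ '' T)
  have h1 : ∀ a, σ a ∈ k := fun a => by
    have ha : a ∈ IntermediateField.adjoin ℚ (T : Set F) := hT ▸ IntermediateField.mem_top
    refine (Subfield.closure_le (t := k.toSubfield.comap σ)).2 ?_ ha
    rintro _ (⟨q, rfl⟩ | hx)
    · change σ _ ∈ k
      rw [eq_ratCast, map_ratCast]
      exact SubfieldClass.ratCast_mem k q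
    · exact IntermediateField.subset_adjoin _ _ ⟨_, hx, rfl⟩
  have h2 : Finite (σ '' T) := (T.finite_toSet.image σ).to_subtype
  have h3 : FiniteDimensional ℚ_[p] k := IntermediateField.finiteDimensional_adjoin fun x _ =>
    (Algebra.IsAlgebraic.isAlgebraic x).isIntegral
  have h4 : ProperSpace k := FiniteDimensional.proper ℚ_[p] k
  let _ : NontriviallyNormedField k :=
    { non_trivial := by
        obtain ⟨x, hx⟩ := NontriviallyNormedField.non_trivial (α := ℚ_[p])
        exact ⟨algebraMap _ k x, hx.trans_eq (PadicAlgCl.norm_extends p x).symm⟩ }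
  obtain ⟨C, hC⟩ := hNA k L M n _ (hFU k L M n _ (mapS_det (σ.codRestrict k h1) hd) (hs.mapS _))
  have h5 := trace_le (A := mapS σ s g) (C := C) fun m a b => by
    rw [← map_pow]; exact hC (g ^ m) a b
  rwa [AddMonoidHom.map_trace]

theorem stPad_of (hFU : StFU) (hNA : StNA) : StPad := by
  intro F _ _ _ L _ M n s hd hs g
  have := countable_of_ess F
  have h := padic_le hFU hNA M hd hs g
  refine isIntegral_of_padic _ (isAlgebraic_of_le (L := PadicAlgCl 2)
    (have := uncountable_of_nnf ℚ_[2]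
     (algebraMap ℚ_[2] (PadicAlgCl 2)).injective.uncountable) (2 : ℕ)⁻¹ ?_ _ (h 2)) h
  rw [← map_ratCast (algebraMap ℚ_[2] (PadicAlgCl 2)), PadicAlgCl.norm_extends, Rat.cast_inv,
    Rat.cast_natCast, norm_inv, Padic.norm_p]
  norm_num

end Vale.Agent.P284Z.GI
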