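import Vale.Agent.P284Z.I.Ad
import Vale.Agent.P284Z.I.FU
import Vale.Agent.P284Z.I.Mean
import Vale.Agent.P284Z.I.Main
import Vale.Agent.P284Z.I.Arch
import Vale.Agent.P284Z.I.Pad
import Vale.Agent.P284Z.I.Core

/-!
# P284Z, block I: assembly
-/

namespace Vale.Agent.P284Z

open GI in
theorem stI : StI :=
  stMain stAb stSep stSub stAd stMean (stCore_of stStab stFU (stPad_of stFU stNA) stArch) stRad

end Vale.Agent.P284Z
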