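import Vale.Agent.P284Z.I.Sub

/-!
# P284Z, block I: the adjoint representation
-/

open scoped Topology Pointwise
open Filter Set

noncomputable section

namespace Vale.Agent.P284Z.GI

namespace Loc

variable {Γ : Type} [Group Γ] {E : Type} [NormedAddCommGroup E] (L : Loc Γ E)

/-- the jets of `g` and of `a g a⁻¹` -/
def pair (a : Γ) : Loc Γ (E × E) where
  N := {g | g ∈ L.N ∧ a * g * a⁻¹ ∈ L.N}
  J := fun g => (L.J g, L.J (a * g * a⁻¹))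
  ε := L.ε
  ε_pos := L.ε_pos
  K := L.K
  K_nonneg := L.K_nonneg
  Kε := L.Kε
  one := ⟨L.one, by simpa using L.one⟩
  J_one := by simp [L.J_one]
  mul := fun g hg h hh h1 h2 => by
    have e : a * (g * h) * a⁻¹ = (a * g * a⁻¹) * (a * h * a⁻¹) := by group
    have g1 := norm_fst_le (L.J g, L.J (a * g * a⁻¹))
    have g2 := norm_snd_le (L.J g, L.J (a * g * a⁻¹))
    have k1 := norm_fst_le (L.J h, L.J (a * h * a⁻¹))
    have k2 := norm_snd_le (L.J h, L.J (a * h * a⁻¹))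
    obtain ⟨p1, p2⟩ := L.mul g hg.1 h hh.1 (g1.trans_lt h1) (k1.trans_lt h2)
    obtain ⟨q1, q2⟩ := L.mul _ hg.2 _ hh.2 (g2.trans_lt h1) (k2.trans_lt h2)
    refine ⟨⟨p1, e ▸ q1⟩, norm_prod_le_iff.2 ⟨p2.trans ?_, ?_⟩⟩
    · exact mul_le_mul_of_nonneg_left (mul_le_mul g1 k1 (norm_nonneg _) (norm_nonneg _)) L.K_nonneg
    · rw [e]
      exact q2.trans
        (mul_le_mul_of_nonneg_left (mul_le_mul g2 k2 (norm_nonneg _) (norm_nonneg _)) L.K_nonneg)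
  inv := fun g hg h1 => by
    have e : a * g⁻¹ * a⁻¹ = (a * g * a⁻¹)⁻¹ := by group
    have g1 := norm_fst_le (L.J g, L.J (a * g * a⁻¹))
    have g2 := norm_snd_le (L.J g, L.J (a * g * a⁻¹))
    obtain ⟨p1, p2⟩ := L.inv g hg.1 (g1.trans_lt h1)
    obtain ⟨q1, q2⟩ := L.inv _ hg.2 (g2.trans_lt h1)
    refine ⟨⟨p1, e ▸ q1⟩, norm_prod_le_iff.2 ⟨p2.trans ?_, ?_⟩⟩
    · exact mul_le_mul_of_nonneg_left (pow_le_pow_left₀ (norm_nonneg _) g1 2) L.K_nonneg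
    · rw [e]
      exact q2.trans (mul_le_mul_of_nonneg_left (pow_le_pow_left₀ (norm_nonneg _) g2 2) L.K_nonneg)

/-- conjugation is Lipschitz at `1` -/
def Cj (a : Γ) : Prop := ∃ ε > 0, ∃ K' ≥ (1 : ℝ), ∀ g ∈ L.N, ‖L.J g‖ < ε →
  a * g * a⁻¹ ∈ L.N ∧ ‖L.J (a * g * a⁻¹)‖ ≤ K' * ‖L.J g‖

variable {L}

/-- the commutator with `a` is Lipschitz and almost subadditive -/
theorem Cj.comm {a : Γ} (h : L.Cj a) : ∃ e > 0, ∃ C ≥ (0 : ℝ), 10 * e ≤ L.ε ∧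
    (∀ x ∈ L.N, ‖L.J x‖ < e → a * x * a⁻¹ * x⁻¹ ∈ L.N ∧
      ‖L.J (a * x * a⁻¹ * x⁻¹)‖ ≤ C * ‖L.J x‖ ∧
      ‖L.J (a * x * a⁻¹ * x⁻¹)‖ ≤ ‖L.J (a * x * a⁻¹) - L.J x‖ + C * ‖L.J x‖ ^ 2) ∧
    ∀ x ∈ L.N, ∀ y ∈ L.N, ‖L.J x‖ < e → ‖L.J y‖ < e →
      ‖L.J (a * (x * y) * a⁻¹ * (x * y)⁻¹)‖ ≤
        ‖L.J (a * x * a⁻¹ * x⁻¹)‖ + 4 * ‖L.J (a * y * a⁻¹ * y⁻¹)‖ := by
  obtain ⟨ε, hε, K', hK', h⟩ := h
  have hp := L.ε_pos
  have hK := L.K_nonneg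
  obtain ⟨e, he, e1, e2⟩ : ∃ e > 0, e ≤ ε ∧ e * (10 * (K' + 4)) ≤ L.ε :=
    ⟨min ε (L.ε / (10 * (K' + 4))), by positivity, min_le_left _ _,
      (le_div_iff₀ (by positivity)).1 (min_le_right _ _)⟩
  have key : ∀ x ∈ L.N, ‖L.J x‖ < e → a * x * a⁻¹ * x⁻¹ ∈ L.N ∧
      ‖L.J (a * x * a⁻¹ * x⁻¹)‖ ≤ (K' + 4) * ‖L.J x‖ ∧
      ‖L.J (a * x * a⁻¹ * x⁻¹)‖ ≤ ‖L.J (a * x * a⁻¹) - L.J x‖ +
        L.K * (2 * K' + 1) * ‖L.J x‖ ^ 2 := by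
    intro x hx hxe
    have h0 := norm_nonneg (L.J x)
    obtain ⟨h1, h2⟩ := h x hx (hxe.trans_le e1)
    have h3 : ‖L.J (a * x * a⁻¹)‖ < L.ε := by nlinarith
    have h4 : 2 * ‖L.J x‖ < L.ε := by nlinarith
    obtain ⟨h5, h6⟩ := L.div h1 hx h3 h4
    have h7 := L.inv_le hx (by linarith)
    have h8 := L.mul_le h1 (L.inv x hx (by linarith)).1 h3 (by linarith)
    refine ⟨h5, by linarith, h6.trans (add_le_add_right ?_ _)⟩
    rw [mul_assoc L.K]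
    refine mul_le_mul_of_nonneg_left ?_ hK
    nlinarith
  refine ⟨e, he, max (K' + 4) (L.K * (2 * K' + 1)), le_max_of_le_left (by linarith), by nlinarith,
    fun x hx hxe => ?_, fun x hx y hy hxe hye => ?_⟩
  · obtain ⟨h1, h2, h3⟩ := key x hx hxe
    exact ⟨h1, h2.trans (mul_le_mul_of_nonneg_right (le_max_left _ _) (norm_nonneg _)),
      h3.trans (add_le_add_right (mul_le_mul_of_nonneg_right (le_max_right _ _) (sq_nonneg _)) _)⟩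
  · obtain ⟨x1, x2, -⟩ := key x hx hxe
    obtain ⟨y1, y2, -⟩ := key y hy hye
    have x0 := norm_nonneg (L.J x)
    have y0 := norm_nonneg (L.J y)
    have y3 : 10 * ‖L.J (a * y * a⁻¹ * y⁻¹)‖ < L.ε := by nlinarith
    obtain ⟨h1, h2⟩ := L.conj_small hx y1 (by nlinarith) y3
    have h3 := L.mul_le x1 h1 (by nlinarith) (by linarith [norm_nonneg (L.J (a * y * a⁻¹ * y⁻¹))])
    have h4 : a * (x * y) * a⁻¹ * (x * y)⁻¹ =
        a * x * a⁻¹ * x⁻¹ * (x * (a * y * a⁻¹ * y⁻¹) * x⁻¹) := by group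
    rw [h4]
    linarith

variable [NormedSpace ℝ E]

theorem mem_pair {a : Γ} {ξ ζ : E} : (ξ, ζ) ∈ (L.pair a).T ↔ ∃ l : Filter (Γ × ℝ), l.NeBot ∧
    (∀ᶠ p in l, p.1 ∈ L.N ∧ a * p.1 * a⁻¹ ∈ L.N) ∧
    (Tendsto (fun p => L.J p.1) l (𝓝 0) ∧ Tendsto (fun p => L.J (a * p.1 * a⁻¹)) l (𝓝 0)) ∧
    Tendsto (fun p => p.2 • L.J p.1) l (𝓝 ξ) ∧
      Tendsto (fun p => p.2 • L.J (a * p.1 * a⁻¹)) l (𝓝 ζ) := by
  refine exists_congr fun l => and_congr_right fun _ => and_congr Iff.rfl (and_congr ?_ ?_)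
  · exact ⟨fun h => ⟨h.fst_nhds, h.snd_nhds⟩, fun h => h.1.prodMk_nhds h.2⟩
  · exact ⟨fun h => ⟨h.fst_nhds, h.snd_nhds⟩, fun h => h.1.prodMk_nhds h.2⟩

theorem snd_mem {a : Γ} {ξ ζ : E} (h : (ξ, ζ) ∈ (L.pair a).T) : ζ ∈ L.T := by
  obtain ⟨l, hl, h1, ⟨-, h2⟩, -, h3⟩ := mem_pair.1 h
  exact ⟨map (fun p : Γ × ℝ => (a * p.1 * a⁻¹, p.2)) l, inferInstance,
    eventually_map.2 (h1.mono fun _ h => h.2), tendsto_map'_iff.2 h2, tendsto_map'_iff.2 h3⟩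

theorem fst_mem {a : Γ} {ξ ζ : E} (h : (ξ, ζ) ∈ (L.pair a).T) : ξ ∈ L.T := by
  obtain ⟨l, hl, h1, ⟨h2, -⟩, h3, -⟩ := mem_pair.1 h
  exact ⟨l, hl, h1.mono fun _ h => h.1, h2, h3⟩

theorem Cj.ev {a : Γ} (h : L.Cj a) : ∃ K' ≥ (1 : ℝ), ∀ l : Filter (Γ × ℝ),
    (∀ᶠ p in l, p.1 ∈ L.N) → Tendsto (fun p => L.J p.1) l (𝓝 0) →
    ∀ᶠ p in l, a * p.1 * a⁻¹ ∈ L.N ∧ ‖L.J (a * p.1 * a⁻¹)‖ ≤ K' * ‖L.J p.1‖ ∧
      ‖p.2 • L.J (a * p.1 * a⁻¹)‖ ≤ K' * ‖p.2 • L.J p.1‖ := by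
  obtain ⟨ε, hε, K', hK', h⟩ := h
  refine ⟨K', hK', fun l h1 h2 => ?_⟩
  rw [tendsto_zero_iff_norm_tendsto_zero] at h2
  filter_upwards [h1, h2.eventually (gt_mem_nhds hε)] with p p1 p2
  obtain ⟨h3, h4⟩ := h _ p1 p2
  refine ⟨h3, h4, ?_⟩
  rw [norm_smul, norm_smul, mul_left_comm]
  exact mul_le_mul_of_nonneg_left h4 (norm_nonneg _)

theorem Cj.uniq {a : Γ} (h : L.Cj a) {ξ ζ ζ' : E} (h1 : (ξ, ζ) ∈ (L.pair a).T)
    (h2 : (ξ, ζ') ∈ (L.pair a).T) : ζ = ζ' := by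
  have h3 := (L.pair a).T.sub_mem h1 h2
  rw [Prod.mk_sub_mk, sub_self] at h3
  obtain ⟨l, hl, p1, ⟨p2, -⟩, p3, p4⟩ := mem_pair.1 h3
  obtain ⟨K', -, hK⟩ := h.ev
  have h4 := le_of_tendsto_of_tendsto p4.norm (p3.norm.const_mul K')
    ((hK l (p1.mono fun _ h => h.1) p2).mono fun _ h => h.2.2)
  rwa [norm_zero, mul_zero, norm_le_zero_iff, sub_eq_zero] at h4

variable [ProperSpace E]

theorem Cj.ext {a : Γ} (h : L.Cj a) {l : Filter (Γ × ℝ)} [l.NeBot] {ξ : E}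
    (h1 : ∀ᶠ p in l, p.1 ∈ L.N) (h2 : Tendsto (fun p => L.J p.1) l (𝓝 0))
    (h3 : Tendsto (fun p => p.2 • L.J p.1) l (𝓝 ξ)) : ∃ ζ, ∃ l' ≤ l, l'.NeBot ∧
      (∀ᶠ p in l', a * p.1 * a⁻¹ ∈ L.N) ∧ Tendsto (fun p => L.J (a * p.1 * a⁻¹)) l' (𝓝 0) ∧
      Tendsto (fun p => p.2 • L.J (a * p.1 * a⁻¹)) l' (𝓝 ζ) := by
  obtain ⟨K', hK', hK⟩ := h.ev
  have h4 := hK l h1 h2
  have h5 : ∀ᶠ p in l, p.2 • L.J (a * p.1 * a⁻¹) ∈ Metric.closedBall (0 : E) (K' * (‖ξ‖ + 1)) := by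
    filter_upwards [h4, h3.norm.eventually (ge_mem_nhds (lt_add_one ‖ξ‖))] with p p1 p2
    rw [mem_closedBall_zero_iff]
    exact p1.2.2.trans (mul_le_mul_of_nonneg_left p2 (by linarith))
  obtain ⟨ζ, -, hζ⟩ := (isCompact_closedBall (0 : E) (K' * (‖ξ‖ + 1))).ultrafilter_le_nhds
    ((Ultrafilter.of l).map fun p : Γ × ℝ => p.2 • L.J (a * p.1 * a⁻¹))
    (le_principal_iff.2 (Ultrafilter.of_le l h5))
  refine ⟨ζ, Ultrafilter.of l, Ultrafilter.of_le l, inferInstance,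
    (h4.mono fun _ h => h.1).filter_mono (Ultrafilter.of_le l),
    Tendsto.mono_left ?_ (Ultrafilter.of_le l), hζ⟩
  rw [tendsto_zero_iff_norm_tendsto_zero] at h2 ⊢
  exact squeeze_zero' (Eventually.of_forall fun _ => norm_nonneg _) (h4.mono fun _ h => h.2.1)
    (by simpa using h2.const_mul K')

theorem Cj.ex {a : Γ} (h : L.Cj a) {ξ : E} (hξ : ξ ∈ L.T) : ∃ ζ, (ξ, ζ) ∈ (L.pair a).T := by
  obtain ⟨l, hl, h1, h2, h3⟩ := hξ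
  obtain ⟨ζ, l', hl', hn, p1, p2, p3⟩ := h.ext h1 h2 h3
  exact ⟨ζ, mem_pair.2 ⟨l', hn, (h1.filter_mono hl').and p1, ⟨h2.mono_left hl', p2⟩,
    h3.mono_left hl', p3⟩⟩

theorem Cj.trans {a b : Γ} (h : L.Cj b) {ξ ζ θ : E} (h1 : (ξ, ζ) ∈ (L.pair a).T)
    (h2 : (ζ, θ) ∈ (L.pair b).T) : (ξ, θ) ∈ (L.pair (b * a)).T := by
  obtain ⟨l, hl, p1, ⟨p2, p3⟩, p4, p5⟩ := mem_pair.1 h1
  have e : ∀ g, b * a * g * (b * a)⁻¹ = b * (a * g * a⁻¹) * b⁻¹ := fun g => by group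
  have e' : ∀ g, a * (a⁻¹ * g * a) * a⁻¹ = g := fun g => by group
  obtain ⟨θ', l', hl', hn, q1, q2, q3⟩ := h.ext
    (l := map (fun p : Γ × ℝ => (a * p.1 * a⁻¹, p.2)) l) (ξ := ζ)
    (eventually_map.2 (p1.mono fun _ h => h.2)) (tendsto_map'_iff.2 p3) (tendsto_map'_iff.2 p5)
  have r1 : ∀ᶠ p in l', p.1 ∈ L.N :=
    (eventually_map.2 (p1.mono fun _ h => h.2)).filter_mono hl'
  have r2 : Tendsto (fun p : Γ × ℝ => L.J p.1) l' (𝓝 0) :=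
    Tendsto.mono_left (tendsto_map'_iff.2 p3) hl'
  have r3 : Tendsto (fun p : Γ × ℝ => p.2 • L.J p.1) l' (𝓝 ζ) :=
    (tendsto_map'_iff.2 p5).mono_left hl'
  obtain rfl : θ = θ' := h.uniq h2 (mem_pair.2 ⟨l', hn, r1.and q1, ⟨r2, q2⟩, r3, q3⟩)
  have hle : map (fun p : Γ × ℝ => (a⁻¹ * p.1 * a, p.2)) l' ≤ l := by
    refine (map_mono hl').trans ?_
    rw [map_map]
    have : ((fun p : Γ × ℝ => (a⁻¹ * p.1 * a, p.2)) ∘ fun p : Γ × ℝ => (a * p.1 * a⁻¹, p.2)) =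
        id := by
      funext p
      simp [mul_assoc]
    rw [this, map_id]
  refine mem_pair.2 ⟨map (fun p : Γ × ℝ => (a⁻¹ * p.1 * a, p.2)) l', inferInstance,
    ((p1.mono fun _ h => h.1).filter_mono hle).and (eventually_map.2 ?_),
    ⟨p2.mono_left hle, tendsto_map'_iff.2 ?_⟩, p4.mono_left hle, tendsto_map'_iff.2 ?_⟩
  · simpa only [e, e'] using q1
  · simpa only [Function.comp_def, e, e'] using q2
  · simpa only [Function.comp_def, e, e'] using q3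

/-- the adjoint representation -/
theorem exists_ad (h : ∀ a, L.Cj a) : ∃ ρ : Γ →* Module.End ℝ L.T,
    ∀ a (ξ : L.T), ((ξ : E), (ρ a ξ : E)) ∈ (L.pair a).T := by
  choose f hf using fun a (ξ : L.T) => (h a).ex ξ.2
  refine ⟨{ toFun := fun a =>
              { toFun := fun ξ => ⟨f a ξ, snd_mem (hf a ξ)⟩
                map_add' := fun ξ ζ => Subtype.ext ((h a).uniq (hf a (ξ + ζ))
                  ((L.pair a).T.add_mem (hf a ξ) (hf a ζ)))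
                map_smul' := fun r ξ => Subtype.ext ((h a).uniq (hf a (r • ξ))
                  ((L.pair a).T.smul_mem r (hf a ξ))) }
            map_one' := LinearMap.ext fun ξ => Subtype.ext ((h 1).uniq (hf 1 ξ) ?_)
            map_mul' := fun a b => LinearMap.ext fun ξ => Subtype.ext ((h (a * b)).uniq (hf _ ξ)
              ((h a).trans (hf b ξ) (hf a ⟨f b ξ, snd_mem (hf b ξ)⟩))) }, hf⟩
  obtain ⟨l, hl, h1, h2, h3⟩ := ξ.2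
  refine mem_pair.2 ⟨l, hl, ?_, ⟨h2, ?_⟩, h3, ?_⟩
  · simpa using h1
  · simpa using h2
  · simpa using h3

/-- an element which acts trivially on the limit directions commutes with the small elements -/
theorem Cj.central {a : Γ} (h : L.Cj a) (ha : ∀ ξ ζ, (ξ, ζ) ∈ (L.pair a).T → ζ = ξ) :
    ∃ e > 0, ∀ x ∈ L.N, ‖L.J x‖ < e → a * x * a⁻¹ * x⁻¹ ∈ L.N ∧ L.J (a * x * a⁻¹ * x⁻¹) = 0 := by
  obtain ⟨e₁, he₁, C, hC, hε, h1, h2⟩ := h.comm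
  have small : ∀ η > 0, ∃ δ > 0, ∀ b ∈ L.N, ‖L.J b‖ ≤ δ →
      ‖L.J (a * b * a⁻¹ * b⁻¹)‖ ≤ η * ‖L.J b‖ := by
    intro η hη
    obtain ⟨ε, hε, K', hK', h⟩ := h
    obtain ⟨e, he, h3⟩ := (L.pair a).app (η := η / (4 * K')) (by positivity)
    obtain ⟨δ, hδ, d1, d2, d3, d4⟩ : ∃ δ > 0, δ < ε ∧ δ < e₁ ∧ δ * K' < e ∧ δ * C ≤ η / 2 := by
      have h0 : ∀ c : ℝ, Tendsto (fun τ : ℝ => τ * c) (𝓝[>] 0) (𝓝 0) := fun c => by
        simpa using ((tendsto_id (x := 𝓝 (0 : ℝ))).mul_const c).mono_left nhdsWithin_le_nhds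
      obtain ⟨τ, a, b, c, d, e⟩ := (eventually_mem_nhdsWithin.and
        (((gt_mem_nhds hε).filter_mono nhdsWithin_le_nhds).and
        (((gt_mem_nhds he₁).filter_mono nhdsWithin_le_nhds).and
        (((h0 K').eventually (gt_mem_nhds he)).and
        ((h0 C).eventually (ge_mem_nhds (half_pos hη))))))).exists
      exact ⟨τ, a, b, c, d, e⟩
    refine ⟨δ, hδ, fun b hb hbδ => ?_⟩
    have b0 := norm_nonneg (L.J b)
    obtain ⟨p1, p2⟩ := h b hb (hbδ.trans_lt d1)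
    have p3 : ‖(L.pair a).J b‖ ≤ K' * ‖L.J b‖ :=
      norm_prod_le_iff.2 ⟨le_mul_of_one_le_left b0 hK', p2⟩
    obtain ⟨⟨ξ, ζ⟩, q1, q2⟩ := h3 b ⟨hb, p1⟩ (by nlinarith)
    obtain rfl := ha _ _ q1
    have q3 : ‖(L.pair a).J b - (ζ, ζ)‖ ≤ η / 4 * ‖L.J b‖ := by
      refine q2.trans ((mul_le_mul_of_nonneg_left p3 (by positivity)).trans_eq ?_)
      field_simp
    have q4 : ‖L.J b - ζ‖ ≤ η / 4 * ‖L.J b‖ := (norm_fst_le _).trans q3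
    have q5 : ‖L.J (a * b * a⁻¹) - ζ‖ ≤ η / 4 * ‖L.J b‖ := (norm_snd_le _).trans q3
    have q6 : ‖L.J (a * b * a⁻¹) - L.J b‖ ≤ ‖L.J (a * b * a⁻¹) - ζ‖ + ‖L.J b - ζ‖ := by
      have : L.J (a * b * a⁻¹) - L.J b = (L.J (a * b * a⁻¹) - ζ) - (L.J b - ζ) := by abel
      rw [this]
      exact norm_sub_le _ _
    have q7 := (h1 b hb (hbδ.trans_lt d2)).2.2
    have q8 : C * ‖L.J b‖ ≤ η / 2 := by nlinarith
    nlinarith
  have hpow : ∀ b ∈ L.N, ‖L.J b‖ < e₁ → ∀ n : ℕ, 2 * (n * ‖L.J b‖) < e₁ →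
      ‖L.J (a * b ^ n * a⁻¹ * (b ^ n)⁻¹)‖ ≤ 4 * n * ‖L.J (a * b * a⁻¹ * b⁻¹)‖ := by
    intro b hb hbe n
    induction n with
    | zero => simp [L.J_one]
    | succ n ih =>
      intro hn
      have b0 := norm_nonneg (L.J b)
      rw [Nat.cast_succ] at hn ⊢
      have h3 : 2 * (n * ‖L.J b‖) < e₁ := by nlinarith
      obtain ⟨p1, -, p3⟩ := L.pow hb n (by linarith)
      have h4 := h2 _ p1 b hb (p3.trans_lt h3) hbe
      rw [pow_succ]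
      linarith [ih h3]
  obtain ⟨e₂, he₂, h3⟩ := L.peel
  have key : ∀ k : ℕ, ∀ x ∈ L.N, ‖L.J x‖ < min e₂ (e₁ / 4) →
      ‖L.J (a * x * a⁻¹ * x⁻¹)‖ ≤ C * ‖L.J x‖ * (1 / 2) ^ k := by
    intro k
    induction k with
    | zero =>
      intro x hx hxe
      simpa using (h1 x hx (by linarith [min_le_right e₂ (e₁ / 4)])).2.1
    | succ k ih =>
      intro x hx hxe
      have x0 := norm_nonneg (L.J x)
      have x1 := hxe.trans_le (min_le_right _ _)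
      refine le_of_forall_pos_le_add fun η hη => ?_
      obtain ⟨δ, hδ, hs⟩ := small (η / (8 * e₁)) (by positivity)
      obtain ⟨b, hb, n, p1, p2, p3, p4⟩ := h3 x hx (hxe.trans_le (min_le_left _ _))
        (min δ (e₁ / 2)) (by positivity)
      obtain ⟨q1, -, q3⟩ := L.pow hb n (by linarith)
      have q4 := h2 _ p3 _ q1 (by linarith) (by linarith)
      rw [inv_mul_cancel_right] at q4
      have q5 := ih _ p3 (by linarith)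
      have q6 := hpow b hb (by linarith [min_le_right δ (e₁ / 2)]) n (by linarith)
      have q7 := hs b hb (p1.trans (min_le_left _ _))
      have q8 : 4 * n * ‖L.J (a * b * a⁻¹ * b⁻¹)‖ ≤ η / 4 := by
        calc 4 * n * ‖L.J (a * b * a⁻¹ * b⁻¹)‖ ≤ 4 * n * (η / (8 * e₁) * ‖L.J b‖) :=
              mul_le_mul_of_nonneg_left q7 (by positivity)
          _ = η / (2 * e₁) * (n * ‖L.J b‖) := by field_simp; ring
          _ ≤ η / (2 * e₁) * (e₁ / 2) := mul_le_mul_of_nonneg_left (by linarith) (by positivity)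
          _ = η / 4 := by field_simp; ring
      have q9 : C * ‖L.J (x * (b ^ n)⁻¹)‖ * (1 / 2) ^ k ≤ C * (‖L.J x‖ / 2) * (1 / 2) ^ k := by
        gcongr
      rw [pow_succ]
      linarith
  refine ⟨min e₂ (e₁ / 4), by positivity, fun x hx hxe =>
    ⟨(h1 x hx (by linarith [min_le_right e₂ (e₁ / 4)])).1, norm_le_zero_iff.1 ?_⟩⟩
  have h4 := (tendsto_pow_atTop_nhds_zero_of_lt_one (r := (1 / 2 : ℝ)) (by norm_num)
    (by norm_num)).const_mul (C * ‖L.J x‖)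
  rw [mul_zero] at h4
  exact ge_of_tendsto' h4 fun k => key k x hx hxe

end Loc

theorem stAd : StAd := by
  intro Γ _ S hsep
  have hc : ∀ a, (loc S).Cj a := conj' S
  obtain ⟨ρ, hρ⟩ := Loc.exists_ad hc
  let e := LinearMap.toMatrixAlgEquiv (Module.finBasis ℝ (loc S).T)
  refine ⟨_, e.toMulEquiv.toMonoidHom.comp ρ, fun a ha => ?_⟩
  have h1 : ρ a = 1 := e.injective (ha.trans (map_one e).symm)
  obtain ⟨ε, hε, h⟩ := (hc a).central fun ξ ζ h => by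
    have h2 := hρ a ⟨ξ, Loc.fst_mem h⟩
    rw [h1] at h2
    exact (hc a).uniq h h2
  refine ⟨ε, hε, fun x hx => ?_⟩
  obtain ⟨h2, h3⟩ := h x hx.1 hx.2
  have h4 := hsep _ h2 h3
  rwa [mul_inv_eq_one, mul_inv_eq_iff_eq_mul] at h4

end Vale.Agent.P284Z.GI
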