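import Vale.Agent.P284Z.Spec
import Mathlib.RingTheory.EssentialFiniteness
import Mathlib.FieldTheory.IntermediateField.Adjoin.Defs
import Mathlib.GroupTheory.Solvable
import Mathlib.Topology.MetricSpace.Ultra.Basic
import Mathlib.RingTheory.IntegralClosure.IsIntegral.Defs

/-!
# P284Z, block I (groups): definitions and statements of the steps

See notes/P284_helper26.md (route 2).
-/

open scoped Topology Pointwise
open Filter Set

noncomputable section

namespace Vale.Agent.P284Z.GI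

variable {Γ : Type} [Group Γ]

/-- the small elements -/
def Nb (S : LS Γ) (ε : ℝ) : Set Γ := {g | g ∈ S.N ∧ ‖S.J g‖ < ε}

/-- the jet separates the small elements from `1` -/
def Sep (S : LS Γ) : Prop := ∀ g ∈ S.N, S.J g = 0 → g = 1

/-- no nontrivial commutative normal subgroup -/
def NoAb (Γ : Type) [Group Γ] : Prop :=
  ∀ A : Subgroup Γ, A.Normal → (∀ x ∈ A, ∀ y ∈ A, x * y = y * x) → A = ⊥

/-- nontrivial normal subgroups generated by arbitrarily small elements -/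
structure Cl (S : LS Γ) (L : Subgroup Γ) : Prop where
  normal : L.Normal
  ne : L ≠ ⊥
  gen : ∀ ε > 0, L ≤ Subgroup.closure ((L : Set Γ) ∩ Nb S ε)

/-- A filter of small elements which generate the group, and a finitely additive probability which is
almost invariant under small elements. -/
structure Sm (L : Type) [Group L] where
  F : Filter L
  one : ∀ U ∈ F, (1 : L) ∈ U
  mul : ∀ U ∈ F, ∃ T ∈ F, ∀ g ∈ T, ∀ h ∈ T, g * h ∈ U
  inv : ∀ U ∈ F, ∀ᶠ g in F, g⁻¹ ∈ U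
  gen : ∀ U ∈ F, Subgroup.closure U = ⊤
  μ : Set L → ℝ
  nonneg : ∀ A, 0 ≤ μ A
  total : μ univ = 1
  add : ∀ A B, Disjoint A B → μ (A ∪ B) = μ A + μ B
  ai : ∀ η > (0 : ℝ), ∀ᶠ g in F, ∀ A, μ A - η ≤ μ (g • A)

/-- every subgroup of finite index spans the matrix algebra -/
def Str {L k : Type} [Group L] [Field k] {n : ℕ} (s : L →* Matrix (Fin n) (Fin n) k) : Prop :=
  ∀ H : Subgroup L, H.FiniteIndex → Submodule.span k (s '' (H : Set L)) = ⊤

/-- **Ab** -/
def StAb : Prop := ∀ (Γ : Type) [Group Γ], NoRad Γ → NoAb Γ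

/-- **Sep** -/
def StSep : Prop := ∀ (Γ : Type) [Group Γ], NoRad Γ → ∀ S : LS Γ, Sep S

/-- **Mean** -/
def StMean : Prop :=
  ∀ (Γ : Type) [Group Γ] (S : LS Γ) (L : Subgroup Γ), Cl S L → Nonempty (Sm L)

/-- **Sub**: the class `Cl` is not empty, and cofinal under commutators and finite index -/
def StSub : Prop :=
  ∀ (Γ : Type) [Group Γ], NoAb Γ → ∀ S : LS Γ, Sep S → (∃ L, Cl S L) ∧
    (∀ L, Cl S L → ∃ D ≤ ⁅L, L⁆, Cl S D) ∧
    ∀ L, Cl S L → ∀ H : Subgroup L, H.FiniteIndex → ∃ D ≤ H.map L.subtype, Cl S D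

/-- **Ad**: the adjoint representation -/
def StAd : Prop :=
  ∀ (Γ : Type) [Group Γ] (S : LS Γ), Sep S → ∃ (d : ℕ) (ρ : Γ →* Matrix (Fin d) (Fin d) ℝ),
    ∀ a, ρ a = 1 → ∃ e > 0, ∀ x ∈ Nb S e, a * x = x * a

/-- **Stab**: a subgroup with finitely many small cosets has finite index -/
def StStab : Prop :=
  ∀ (L : Type) [Group L] (M : Sm L) (H : Subgroup L), ∀ U ∈ M.F, ∀ T : Set L, T.Finite →
    (∀ g ∈ U, ∃ t ∈ T, t⁻¹ * g ∈ H) → H.FiniteIndex

/-- **FU**: Furstenberg's lemma -/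
def StFU : Prop :=
  ∀ (k : Type) [NontriviallyNormedField k] [ProperSpace k] (L : Type) [Group L] (M : Sm L) (n : ℕ)
    (s : L →* Matrix (Fin n) (Fin n) k), (∀ g, (s g).det = 1) → Str s →
    ∃ C : ℝ, ∀ᶠ g in M.F, ∀ a b, ‖s g a b‖ ≤ C

/-- **NA**: over an ultrametric field, locally bounded implies bounded -/
def StNA : Prop :=
  ∀ (k : Type) [NormedField k] [ProperSpace k] [IsUltrametricDist k] (L : Type) [Group L] (M : Sm L)
    (n : ℕ) (s : L →* Matrix (Fin n) (Fin n) k), (∃ C : ℝ, ∀ᶠ g in M.F, ∀ a b, ‖s g a b‖ ≤ C) →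
    ∃ C : ℝ, ∀ g a b, ‖s g a b‖ ≤ C

/-- **Pad**: the traces are algebraic integers -/
def StPad : Prop :=
  ∀ (F : Type) [Field F] [CharZero F] [Algebra.EssFiniteType ℚ F] (L : Type) [Group L] (_ : Sm L)
    (n : ℕ) (s : L →* Matrix (Fin n) (Fin n) F), (∀ g, (s g).det = 1) → Str s →
    ∀ g, IsIntegral ℤ (s g).trace

/-- **Arch**: finitely many complex embeddings control the algebraic integers -/
def StArch : Prop :=
  ∀ (F : Type) [Field F] [CharZero F] [Algebra.EssFiniteType ℚ F], ∃ E : Set (F →+* ℂ), E.Finite ∧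
    ∀ B : ℝ, {α : F | IsIntegral ℤ α ∧ ∀ σ ∈ E, ‖σ α‖ ≤ B}.Finite

/-- **Core**: the strongly irreducible case -/
def StCore : Prop :=
  ∀ (L : Type) [Group L] (_ : Sm L) (n : ℕ) (s : L →* Matrix (Fin n) (Fin n) ℂ) (T : Set ℂ),
    T.Finite → (∀ g a b, s g a b ∈ IntermediateField.adjoin ℚ T) → (∀ g, (s g).det = 1) → Str s →
    ∀ g, s g = 1

/-- **Rad**: the simple quotients of a matrix algebra -/
def StRad : Prop :=
  ∀ (d : ℕ) (A : Subalgebra ℂ (Matrix (Fin d) (Fin d) ℂ)), ∃ (m : ℕ) (n : Fin m → ℕ)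
    (φ : ∀ i, A →ₐ[ℂ] Matrix (Fin (n i)) (Fin (n i)) ℂ), (∀ i, Function.Surjective (φ i)) ∧
    ∀ (D : Type) [Group D] (u : D →* A), (∀ g i, φ i (u g) = 1) →
      ∃ N : ℕ, ∀ g ∈ derivedSeries D N, u g = 1

/-- **Main** -/
def StMain : Prop := StAb → StSep → StSub → StAd → StMean → StCore → StRad → StI

end Vale.Agent.P284Z.GI
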