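import Vale.Agent.P284Z.I.Defs

/-!
# P284Z, block I: local structures on a group, limit directions, peeling off
-/

open scoped Topology Pointwise
open Filter Set

noncomputable section

namespace Vale.Agent.P284Z.GI

/-- small elements with first order jets -/
structure Loc (Γ : Type) [Group Γ] (E : Type) [NormedAddCommGroup E] where
  N : Set Γ
  J : Γ → E
  ε : ℝ
  ε_pos : 0 < ε
  K : ℝ
  K_nonneg : 0 ≤ K
  Kε : K * ε ≤ 1 / 100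
  one : (1 : Γ) ∈ N
  J_one : J 1 = 0
  mul : ∀ g ∈ N, ∀ h ∈ N, ‖J g‖ < ε → ‖J h‖ < ε →
    g * h ∈ N ∧ ‖J (g * h) - J g - J h‖ ≤ K * (‖J g‖ * ‖J h‖)
  inv : ∀ g ∈ N, ‖J g‖ < ε → g⁻¹ ∈ N ∧ ‖J g⁻¹ + J g‖ ≤ K * ‖J g‖ ^ 2

namespace Loc

variable {Γ : Type} [Group Γ] {E : Type} [NormedAddCommGroup E] (L : Loc Γ E)

theorem K_mul {x : ℝ} (hx : x < L.ε) : L.K * x ≤ 1 / 100 :=
  (mul_le_mul_of_nonneg_left hx.le L.K_nonneg).trans L.Kε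

theorem mul_le {g h : Γ} (hg : g ∈ L.N) (hh : h ∈ L.N) (hg' : ‖L.J g‖ < L.ε) (hh' : ‖L.J h‖ < L.ε) :
    ‖L.J (g * h)‖ ≤ ‖L.J g‖ + 2 * ‖L.J h‖ := by
  have h1 := (L.mul g hg h hh hg' hh').2
  have h2 : ‖L.J (g * h)‖ ≤ ‖L.J (g * h) - L.J g - L.J h‖ + ‖L.J g‖ + ‖L.J h‖ := by
    have : L.J (g * h) = (L.J (g * h) - L.J g - L.J h) + L.J g + L.J h := by abel
    conv_lhs => rw [this]
    exact norm_add₃_le
  have h3 := L.K_mul hg'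
  have h4 := norm_nonneg (L.J h)
  nlinarith

theorem inv_le {g : Γ} (hg : g ∈ L.N) (hg' : ‖L.J g‖ < L.ε) : ‖L.J g⁻¹‖ ≤ 2 * ‖L.J g‖ := by
  have h1 := (L.inv g hg hg').2
  have h2 : ‖L.J g⁻¹‖ ≤ ‖L.J g⁻¹ + L.J g‖ + ‖L.J g‖ := by
    have : L.J g⁻¹ = (L.J g⁻¹ + L.J g) - L.J g := by abel
    conv_lhs => rw [this]
    exact norm_sub_le _ _
  have h3 := L.K_mul hg'
  have h4 := norm_nonneg (L.J g)
  nlinarith

/-- quotients -/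
theorem div {g h : Γ} (hg : g ∈ L.N) (hh : h ∈ L.N) (hg' : ‖L.J g‖ < L.ε)
    (hh' : 2 * ‖L.J h‖ < L.ε) : g * h⁻¹ ∈ L.N ∧
      ‖L.J (g * h⁻¹)‖ ≤ ‖L.J g - L.J h‖ + L.K * (2 * ‖L.J g‖ * ‖L.J h‖ + ‖L.J h‖ ^ 2) := by
  have h0 := norm_nonneg (L.J h)
  have hh1 : ‖L.J h‖ < L.ε := by linarith
  obtain ⟨h1, h2⟩ := L.inv h hh hh1
  have h3 := L.inv_le hh hh1
  obtain ⟨h4, h5⟩ := L.mul g hg h⁻¹ h1 hg' (by linarith)
  refine ⟨h4, ?_⟩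
  have h6 : L.J (g * h⁻¹) = (L.J (g * h⁻¹) - L.J g - L.J h⁻¹) + (L.J h⁻¹ + L.J h) +
      (L.J g - L.J h) := by abel
  have h7 : ‖L.J (g * h⁻¹)‖ ≤ ‖L.J (g * h⁻¹) - L.J g - L.J h⁻¹‖ + ‖L.J h⁻¹ + L.J h‖ +
      ‖L.J g - L.J h‖ := by
    conv_lhs => rw [h6]
    exact norm_add₃_le
  have h8 : L.K * (‖L.J g‖ * ‖L.J h⁻¹‖) ≤ L.K * (‖L.J g‖ * (2 * ‖L.J h‖)) :=
    mul_le_mul_of_nonneg_left (mul_le_mul_of_nonneg_left h3 (norm_nonneg _)) L.K_nonneg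
  nlinarith

/-- conjugation by small elements -/
theorem conj_small {g b : Γ} (hg : g ∈ L.N) (hb : b ∈ L.N) (hg' : 10 * ‖L.J g‖ < L.ε)
    (hb' : 10 * ‖L.J b‖ < L.ε) : g * b * g⁻¹ ∈ L.N ∧ ‖L.J (g * b * g⁻¹)‖ ≤ 2 * ‖L.J b‖ := by
  have h0 := norm_nonneg (L.J g)
  have h0' := norm_nonneg (L.J b)
  have hg1 : ‖L.J g‖ < L.ε := by linarith
  have hb1 : ‖L.J b‖ < L.ε := by linarith
  obtain ⟨h1, h2⟩ := L.mul g hg b hb hg1 hb1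
  have h3 := L.mul_le hg hb hg1 hb1
  have h4 := (L.inv g hg hg1).1
  have h5 := L.inv_le hg hg1
  have h6 := (L.mul _ h1 _ h4 (by linarith) (by linarith)).1
  have h7 := L.mul_le h1 h4 (by linarith) (by linarith)
  refine ⟨h6, ?_⟩
  obtain ⟨d, hd⟩ : ∃ d, d = g * b * g⁻¹ := ⟨_, rfl⟩
  rw [← hd] at h6 h7 ⊢
  have h8 := (L.mul d h6 g hg (by linarith) hg1).2
  have h9 : d * g = g * b := by rw [hd]; group
  rw [h9] at h8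
  have h10 : L.J d = (L.J (g * b) - L.J g - L.J b) - (L.J (g * b) - L.J d - L.J g) + L.J b := by
    abel
  have h11 : ‖L.J d‖ ≤ ‖L.J (g * b) - L.J g - L.J b‖ + ‖L.J (g * b) - L.J d - L.J g‖ +
      ‖L.J b‖ := by
    conv_lhs => rw [h10]
    exact (norm_add_le _ _).trans (add_le_add_left (norm_sub_le _ _) _)
  have h12 := L.K_mul hg1
  have h13 := norm_nonneg (L.J d)
  nlinarith

variable [NormedSpace ℝ E]

/-- powers -/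
theorem pow {b : Γ} (hb : b ∈ L.N) (n : ℕ) (hn : 2 * (n * ‖L.J b‖) < L.ε) :
    b ^ n ∈ L.N ∧ ‖L.J (b ^ n) - (n : ℝ) • L.J b‖ ≤ L.K * (n * ‖L.J b‖) ^ 2 ∧
      ‖L.J (b ^ n)‖ ≤ 2 * (n * ‖L.J b‖) := by
  have h0 := norm_nonneg (L.J b)
  have key : ∀ {x : Γ} {m : ℕ}, 2 * (m * ‖L.J b‖) < L.ε →
      ‖L.J x - (m : ℝ) • L.J b‖ ≤ L.K * (m * ‖L.J b‖) ^ 2 → ‖L.J x‖ ≤ 2 * (m * ‖L.J b‖) := by
    intro x m hm hx
    have h1 : ‖L.J x‖ ≤ ‖L.J x - (m : ℝ) • L.J b‖ + ‖(m : ℝ) • L.J b‖ := by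
      have : L.J x = (L.J x - (m : ℝ) • L.J b) + (m : ℝ) • L.J b := by abel
      conv_lhs => rw [this]
      exact norm_add_le _ _
    rw [norm_smul, Real.norm_natCast] at h1
    have h2 : 0 ≤ (m : ℝ) * ‖L.J b‖ := by positivity
    have h3 := L.K_mul (x := m * ‖L.J b‖) (by linarith)
    nlinarith
  induction n with
  | zero => simp [L.one, L.J_one]
  | succ n ih =>
    have h2 : 0 ≤ (n : ℝ) * ‖L.J b‖ := by positivity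
    have hn' : ((n + 1 : ℕ) : ℝ) * ‖L.J b‖ = n * ‖L.J b‖ + ‖L.J b‖ := by push_cast; ring
    obtain ⟨i1, i2, i3⟩ := ih (by linarith)
    obtain ⟨h3, h4⟩ := L.mul _ i1 b hb (by linarith) (by linarith)
    have h5 : ‖L.J (b ^ (n + 1)) - ((n + 1 : ℕ) : ℝ) • L.J b‖ ≤
        L.K * (((n + 1 : ℕ) : ℝ) * ‖L.J b‖) ^ 2 := by
      have h6 : L.J (b ^ (n + 1)) - ((n + 1 : ℕ) : ℝ) • L.J b =
          (L.J (b ^ n * b) - L.J (b ^ n) - L.J b) + (L.J (b ^ n) - (n : ℝ) • L.J b) := by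
        rw [pow_succ, Nat.cast_succ, add_smul, one_smul]
        abel
      rw [h6, hn']
      refine (norm_add_le _ _).trans ?_
      have h7 : L.K * (‖L.J (b ^ n)‖ * ‖L.J b‖) ≤ L.K * (2 * (n * ‖L.J b‖) * ‖L.J b‖) :=
        mul_le_mul_of_nonneg_left (mul_le_mul_of_nonneg_right i3 h0) L.K_nonneg
      have h8 : 0 ≤ L.K * ‖L.J b‖ ^ 2 := mul_nonneg L.K_nonneg (sq_nonneg _)
      nlinarith
    exact ⟨by rw [pow_succ]; exact h3, h5, key hn h5⟩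

/-- the limit directions -/
def IsDir (ξ : E) : Prop := ∃ l : Filter (Γ × ℝ), l.NeBot ∧ (∀ᶠ p in l, p.1 ∈ L.N) ∧
  Tendsto (fun p => L.J p.1) l (𝓝 0) ∧ Tendsto (fun p => p.2 • L.J p.1) l (𝓝 ξ)

theorem isDir_of {ξ : E} (h : ∀ η > (0 : ℝ), ∃ g ∈ L.N, ∃ t : ℝ, ‖L.J g‖ ≤ η ∧ ‖t • L.J g - ξ‖ ≤ η) :
    L.IsDir ξ := by
  choose! g hg t h1 h2 using h
  have hp : ∀ i : ℕ, (0 : ℝ) < 1 / ((i : ℝ) + 1) := fun i => by positivity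
  refine ⟨map (fun i : ℕ => (g (1 / ((i : ℝ) + 1)), t (1 / ((i : ℝ) + 1)))) atTop, inferInstance,
    ?_, ?_, ?_⟩
  · exact eventually_map.2 (Eventually.of_forall fun i => hg _ (hp i))
  · rw [tendsto_map'_iff, tendsto_zero_iff_norm_tendsto_zero]
    exact squeeze_zero (fun _ => norm_nonneg _) (fun i => h1 _ (hp i))
      tendsto_one_div_add_atTop_nhds_zero_nat
  · rw [tendsto_map'_iff, tendsto_iff_norm_sub_tendsto_zero]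
    exact squeeze_zero (fun _ => norm_nonneg _) (fun i => h2 _ (hp i))
      tendsto_one_div_add_atTop_nhds_zero_nat

variable {L}

theorem IsDir.approx {ξ : E} (h : L.IsDir ξ) {η : ℝ} (hη : 0 < η) :
    ∃ g ∈ L.N, ∃ t : ℝ, ‖L.J g‖ ≤ η ∧ ‖t • L.J g - ξ‖ ≤ η := by
  obtain ⟨l, hl, h1, h2, h3⟩ := h
  rw [tendsto_zero_iff_norm_tendsto_zero] at h2
  rw [tendsto_iff_norm_sub_tendsto_zero] at h3
  obtain ⟨p, p1, p2, p3⟩ := (h1.and ((h2.eventually (ge_mem_nhds hη)).and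
    (h3.eventually (ge_mem_nhds hη)))).exists
  exact ⟨p.1, p1, p.2, p2, p3⟩

theorem IsDir.smul {ξ : E} (h : L.IsDir ξ) (r : ℝ) : L.IsDir (r • ξ) := by
  obtain ⟨l, hl, h1, h2, h3⟩ := h
  refine ⟨map (fun p : Γ × ℝ => (p.1, r * p.2)) l, inferInstance, eventually_map.2 h1,
    tendsto_map'_iff.2 h2, tendsto_map'_iff.2 ?_⟩
  refine (h3.const_smul r).congr fun p => ?_
  simp [smul_smul]

theorem IsDir.nat {ξ : E} (h : L.IsDir ξ) {δ : ℝ} (hδ : 0 < δ) :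
    ∃ b ∈ L.N, ∃ n : ℕ, ‖L.J b‖ ≤ δ ∧ ‖(n : ℝ) • L.J b - ξ‖ ≤ δ := by
  have hpos : ∃ g ∈ L.N, ∃ t : ℝ, 0 ≤ t ∧ ‖L.J g‖ ≤ δ / 2 ∧ ‖t • L.J g - ξ‖ ≤ δ / 2 := by
    have hK := L.K_nonneg
    have hξ := norm_nonneg ξ
    obtain ⟨η, hη, η1, η2, η3, η4⟩ : ∃ η > (0 : ℝ), η ≤ δ / 4 ∧ η < L.ε ∧ η ≤ 1 ∧
        η * (L.K * (‖ξ‖ + 1)) ≤ δ / 4 := by
      have h1 : ∀ᶠ η in 𝓝[>] (0 : ℝ), η * (L.K * (‖ξ‖ + 1)) ≤ δ / 4 := by
        refine (Tendsto.eventually (f := fun η : ℝ => η * (L.K * (‖ξ‖ + 1))) ?_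
          (ge_mem_nhds (show (0 : ℝ) < δ / 4 by positivity))).filter_mono nhdsWithin_le_nhds
        simpa using (tendsto_id (x := 𝓝 (0 : ℝ))).mul_const (L.K * (‖ξ‖ + 1))
      have h2 : ∀ᶠ η in 𝓝[>] (0 : ℝ), η ≤ δ / 4 :=
        (ge_mem_nhds (by positivity)).filter_mono nhdsWithin_le_nhds
      have h3 : ∀ᶠ η in 𝓝[>] (0 : ℝ), η < L.ε :=
        (gt_mem_nhds L.ε_pos).filter_mono nhdsWithin_le_nhds
      have h4 : ∀ᶠ η in 𝓝[>] (0 : ℝ), η ≤ 1 :=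
        (ge_mem_nhds one_pos).filter_mono nhdsWithin_le_nhds
      obtain ⟨η, a, b, c, d, e⟩ :=
        (eventually_mem_nhdsWithin.and (h2.and (h3.and (h4.and h1)))).exists
      exact ⟨η, a, b, c, d, e⟩
    obtain ⟨g, hg, t, h1, h2⟩ := h.approx hη
    rcases le_or_gt 0 t with ht | ht
    · exact ⟨g, hg, t, ht, by linarith, by linarith⟩
    · have hg1 : ‖L.J g‖ < L.ε := h1.trans_lt η2
      obtain ⟨h3, h4⟩ := L.inv g hg hg1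
      have h5 := L.inv_le hg hg1
      refine ⟨g⁻¹, h3, -t, by linarith, by linarith, ?_⟩
      have h6 : (-t) • L.J g⁻¹ - ξ = (-t) • (L.J g⁻¹ + L.J g) + (t • L.J g - ξ) := by
        rw [smul_add, neg_smul t (L.J g)]
        abel
      have h7 : (-t) * ‖L.J g‖ ≤ ‖ξ‖ + 1 := by
        have h8 : ‖t • L.J g‖ ≤ ‖t • L.J g - ξ‖ + ‖ξ‖ := by
          have : t • L.J g = (t • L.J g - ξ) + ξ := by abel
          conv_lhs => rw [this]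
          exact norm_add_le _ _
        rw [norm_smul, Real.norm_eq_abs, abs_of_neg ht] at h8
        linarith
      rw [h6]
      refine (norm_add_le _ _).trans ?_
      rw [norm_smul, Real.norm_eq_abs, abs_of_pos (by linarith)]
      have h9 : (-t) * ‖L.J g⁻¹ + L.J g‖ ≤ (-t) * (L.K * ‖L.J g‖ ^ 2) :=
        mul_le_mul_of_nonneg_left h4 (by linarith)
      have h10 : (-t) * (L.K * ‖L.J g‖ ^ 2) ≤ η * (L.K * (‖ξ‖ + 1)) := by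
        calc (-t) * (L.K * ‖L.J g‖ ^ 2) = ‖L.J g‖ * (L.K * ((-t) * ‖L.J g‖)) := by ring
          _ ≤ η * (L.K * (‖ξ‖ + 1)) := by
            refine mul_le_mul h1 (mul_le_mul_of_nonneg_left h7 hK) ?_ hη.le
            exact mul_nonneg hK (mul_nonneg (by linarith) (norm_nonneg _))
      linarith
  obtain ⟨g, hg, t, ht, h1, h2⟩ := hpos
  refine ⟨g, hg, ⌊t⌋₊, by linarith, ?_⟩
  have h3 : (⌊t⌋₊ : ℝ) • L.J g - ξ = (t • L.J g - ξ) - (t - ⌊t⌋₊) • L.J g := by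
    rw [sub_smul]
    abel
  rw [h3]
  refine (norm_sub_le _ _).trans ?_
  have h4 := Nat.floor_le ht
  have h5 := Nat.lt_floor_add_one t
  rw [norm_smul, Real.norm_eq_abs, abs_of_nonneg (by linarith)]
  have h6 : (t - ⌊t⌋₊) * ‖L.J g‖ ≤ 1 * ‖L.J g‖ :=
    mul_le_mul_of_nonneg_right (by linarith) (norm_nonneg _)
  linarith

/-- the exponential -/
theorem IsDir.exp {ξ : E} (h : L.IsDir ξ) {δ : ℝ} (hδ : 0 < δ) (hs : 2 * (‖ξ‖ + δ) < L.ε) :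
    ∃ b ∈ L.N, ∃ n : ℕ, ‖L.J b‖ ≤ δ ∧ n * ‖L.J b‖ ≤ ‖ξ‖ + δ ∧ b ^ n ∈ L.N ∧
      ‖L.J (b ^ n) - ξ‖ ≤ δ + L.K * (‖ξ‖ + δ) ^ 2 ∧ ‖L.J (b ^ n)‖ ≤ 2 * (‖ξ‖ + δ) := by
  obtain ⟨b, hb, n, h1, h2⟩ := h.nat hδ
  have h3 : n * ‖L.J b‖ ≤ ‖ξ‖ + δ := by
    have h4 : ‖(n : ℝ) • L.J b‖ ≤ ‖(n : ℝ) • L.J b - ξ‖ + ‖ξ‖ := by
      have : (n : ℝ) • L.J b = ((n : ℝ) • L.J b - ξ) + ξ := by abel
      conv_lhs => rw [this]
      exact norm_add_le _ _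
    rw [norm_smul, Real.norm_natCast] at h4
    linarith
  obtain ⟨p1, p2, p3⟩ := L.pow hb n (by linarith)
  refine ⟨b, hb, n, h1, h3, p1, ?_, by linarith⟩
  have h5 : L.J (b ^ n) - ξ = ((n : ℝ) • L.J b - ξ) + (L.J (b ^ n) - (n : ℝ) • L.J b) := by abel
  rw [h5]
  refine (norm_add_le _ _).trans (add_le_add h2 (p2.trans ?_))
  exact mul_le_mul_of_nonneg_left (pow_le_pow_left₀ (by positivity) h3 2) L.K_nonneg

theorem IsDir.add {ξ ζ : E} (h : L.IsDir ξ) (h' : L.IsDir ζ) : L.IsDir (ξ + ζ) := by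
  refine L.isDir_of fun η hη => ?_
  have hK := L.K_nonneg
  obtain ⟨R, hR1, hR2, hR3⟩ : ∃ R : ℝ, 1 ≤ R ∧ ‖ξ‖ + 1 ≤ R ∧ ‖ζ‖ + 1 ≤ R :=
    ⟨‖ξ‖ + ‖ζ‖ + 1, by linarith [norm_nonneg ξ, norm_nonneg ζ], by linarith [norm_nonneg ζ],
      by linarith [norm_nonneg ξ]⟩
  obtain ⟨τ, hτ, τ1, τ2, τ3, τ4⟩ : ∃ τ > (0 : ℝ), τ ≤ 1 ∧ τ * (2 * R) < L.ε ∧ τ * (6 * R) ≤ η ∧
      τ * (2 + 6 * L.K * R ^ 2) ≤ η := by
    have h0 : ∀ c : ℝ, Tendsto (fun τ : ℝ => τ * c) (𝓝[>] 0) (𝓝 0) := fun c => by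
      simpa using ((tendsto_id (x := 𝓝 (0 : ℝ))).mul_const c).mono_left nhdsWithin_le_nhds
    have h4 : ∀ᶠ η in 𝓝[>] (0 : ℝ), η ≤ 1 :=
      (ge_mem_nhds one_pos).filter_mono nhdsWithin_le_nhds
    obtain ⟨τ, a, b, c, d, e⟩ := (eventually_mem_nhdsWithin.and (h4.and
      (((h0 (2 * R)).eventually (gt_mem_nhds L.ε_pos)).and
      (((h0 (6 * R)).eventually (ge_mem_nhds hη)).and
      ((h0 (2 + 6 * L.K * R ^ 2)).eventually (ge_mem_nhds hη)))))).exists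
    exact ⟨τ, a, b, c, d, e⟩
  have key : ∀ θ : E, L.IsDir θ → ‖θ‖ + 1 ≤ R → ∃ g ∈ L.N, ‖L.J g‖ ≤ τ * (2 * R) ∧
      ‖L.J g - τ • θ‖ ≤ τ ^ 2 * (1 + L.K * R ^ 2) := by
    intro θ hθ hθR
    have h1 : ‖τ • θ‖ + τ ^ 2 ≤ τ * R := by
      rw [norm_smul, Real.norm_eq_abs, abs_of_pos hτ]
      nlinarith
    obtain ⟨b, -, n, -, -, p1, p2, p3⟩ := (hθ.smul τ).exp (δ := τ ^ 2) (by positivity) (by linarith)
    refine ⟨b ^ n, p1, by linarith, p2.trans ?_⟩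
    have h2 : L.K * (‖τ • θ‖ + τ ^ 2) ^ 2 ≤ L.K * (τ * R) ^ 2 :=
      mul_le_mul_of_nonneg_left (pow_le_pow_left₀ (by positivity) h1 2) hK
    nlinarith
  obtain ⟨g, hg, g1, g2⟩ := key ξ h hR2
  obtain ⟨k, hk, k1, k2⟩ := key ζ h' hR3
  obtain ⟨m1, m2⟩ := L.mul g hg k hk (by linarith) (by linarith)
  have m3 := L.mul_le hg hk (by linarith) (by linarith)
  refine ⟨g * k, m1, τ⁻¹, by linarith, ?_⟩
  have h1 : τ⁻¹ • L.J (g * k) - (ξ + ζ) = τ⁻¹ • ((L.J (g * k) - L.J g - L.J k) +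
      (L.J g - τ • ξ) + (L.J k - τ • ζ)) := by
    have : (L.J (g * k) - L.J g - L.J k) + (L.J g - τ • ξ) + (L.J k - τ • ζ) =
        L.J (g * k) - τ • (ξ + ζ) := by
      rw [smul_add]
      abel
    rw [this, smul_sub, smul_smul, inv_mul_cancel₀ hτ.ne', one_smul]
  rw [h1, norm_smul, Real.norm_eq_abs, abs_of_pos (inv_pos.2 hτ), inv_mul_le_iff₀ hτ]
  refine norm_add₃_le.trans ?_
  have h2 : L.K * (‖L.J g‖ * ‖L.J k‖) ≤ L.K * (τ * (2 * R) * (τ * (2 * R))) :=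
    mul_le_mul_of_nonneg_left (mul_le_mul g1 k1 (norm_nonneg _) (by positivity)) hK
  have h3 : τ * (τ * (2 + 6 * L.K * R ^ 2)) ≤ τ * η := mul_le_mul_of_nonneg_left τ4 hτ.le
  nlinarith

variable (L)

/-- the space of limit directions -/
def T : Submodule ℝ E where
  carrier := {ξ | L.IsDir ξ}
  add_mem' := fun h h' => IsDir.add h h'
  zero_mem' := L.isDir_of fun η hη => ⟨1, L.one, 0, by simp [L.J_one, hη.le], by simp [hη.le]⟩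
  smul_mem' := fun r _ h => IsDir.smul h r

variable [ProperSpace E]

theorem app {η : ℝ} (hη : 0 < η) :
    ∃ e > 0, ∀ x ∈ L.N, ‖L.J x‖ < e → ∃ ξ ∈ L.T, ‖L.J x - ξ‖ ≤ η * ‖L.J x‖ := by
  by_contra hcon
  push Not at hcon
  choose! x hx h1 h2 using hcon
  have hp : ∀ i : ℕ, (0 : ℝ) < 1 / ((i : ℝ) + 1) := fun i => by positivity
  obtain ⟨y, hy⟩ : ∃ y : ℕ → Γ, ∀ i, y i = x (1 / ((i : ℝ) + 1)) := ⟨_, fun _ => rfl⟩
  have y0 : ∀ i, y i ∈ L.N := fun i => hy i ▸ hx _ (hp i)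
  have y1 : ∀ i : ℕ, ‖L.J (y i)‖ < 1 / ((i : ℝ) + 1) := fun i => hy i ▸ h1 _ (hp i)
  have y2 : ∀ i, ∀ ξ ∈ L.T, η * ‖L.J (y i)‖ < ‖L.J (y i) - ξ‖ := fun i => hy i ▸ h2 _ (hp i)
  have y3 : ∀ i, 0 < ‖L.J (y i)‖ := fun i => by
    have := y2 i 0 L.T.zero_mem
    rw [sub_zero] at this
    refine (norm_nonneg _).lt_of_ne fun h => ?_
    rw [← h] at this
    simp at this
  obtain ⟨ξ, -, φ, hφ, hl⟩ := (isCompact_closedBall (0 : E) 1).tendsto_subseq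
    (x := fun i => ‖L.J (y i)‖⁻¹ • L.J (y i)) fun i => by
      rw [mem_closedBall_zero_iff, norm_smul, norm_inv, norm_norm, inv_mul_cancel₀ (y3 i).ne']
  have hξ : ξ ∈ L.T := by
    refine ⟨map (fun i => (y (φ i), ‖L.J (y (φ i))‖⁻¹)) atTop, inferInstance,
      eventually_map.2 (Eventually.of_forall fun i => y0 _), ?_, tendsto_map'_iff.2 hl⟩
    rw [tendsto_map'_iff, tendsto_zero_iff_norm_tendsto_zero]
    exact squeeze_zero (fun _ => norm_nonneg _) (fun i => (y1 _).le)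
      (tendsto_one_div_add_atTop_nhds_zero_nat.comp hφ.tendsto_atTop)
  rw [tendsto_iff_norm_sub_tendsto_zero] at hl
  obtain ⟨i, hi⟩ := (hl.eventually (ge_mem_nhds hη)).exists
  have h3 := y2 (φ i) _ (L.T.smul_mem ‖L.J (y (φ i))‖ hξ)
  have h4 : L.J (y (φ i)) - ‖L.J (y (φ i))‖ • ξ =
      ‖L.J (y (φ i))‖ • (‖L.J (y (φ i))‖⁻¹ • L.J (y (φ i)) - ξ) := by
    rw [smul_sub, smul_smul, mul_inv_cancel₀ (y3 _).ne', one_smul]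
  rw [h4, norm_smul, norm_norm, mul_comm] at h3
  exact absurd (mul_le_mul_of_nonneg_left hi (norm_nonneg _)) (not_le.2 h3)

/-- peeling off -/
theorem peel : ∃ e > 0, ∀ x ∈ L.N, ‖L.J x‖ < e → ∀ δ > 0, ∃ b ∈ L.N, ∃ n : ℕ, ‖L.J b‖ ≤ δ ∧
    n * ‖L.J b‖ ≤ 2 * ‖L.J x‖ ∧ x * (b ^ n)⁻¹ ∈ L.N ∧ ‖L.J (x * (b ^ n)⁻¹)‖ ≤ ‖L.J x‖ / 2 := by
  obtain ⟨e, he, h⟩ := L.app (η := 1 / 16) (by norm_num)
  refine ⟨min e (L.ε / 10), lt_min he (by linarith [L.ε_pos]), fun x hx hxe δ hδ => ?_⟩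
  obtain ⟨ξ, hξ, h1⟩ := h x hx (hxe.trans_le (min_le_left _ _))
  have h2 : ‖L.J x‖ < L.ε / 10 := hxe.trans_le (min_le_right _ _)
  rcases (norm_nonneg (L.J x)).eq_or_lt with h0 | h0
  · exact ⟨1, L.one, 0, by simp [L.J_one, hδ.le], by simp, by simpa using hx, by simp [← h0]⟩
  have h3 : ‖ξ‖ ≤ ‖L.J x‖ + 1 / 16 * ‖L.J x‖ := by
    have : ξ = L.J x - (L.J x - ξ) := by abel
    conv_lhs => rw [this]
    exact (norm_sub_le _ _).trans (by linarith)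
  obtain ⟨δ', hδ', d1, d2⟩ : ∃ δ' > 0, δ' ≤ δ ∧ δ' ≤ ‖L.J x‖ / 16 :=
    ⟨min δ (‖L.J x‖ / 16), lt_min hδ (by linarith), min_le_left _ _, min_le_right _ _⟩
  obtain ⟨b, hb, n, p1, p2, p3, p4, p5⟩ := IsDir.exp hξ hδ' (by linarith)
  obtain ⟨q1, q2⟩ := L.div hx p3 (by linarith) (by linarith)
  refine ⟨b, hb, n, p1.trans d1, by linarith, q1, q2.trans ?_⟩
  have h4 : ‖L.J x - L.J (b ^ n)‖ ≤ ‖L.J x - ξ‖ + ‖L.J (b ^ n) - ξ‖ := by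
    have : L.J x - L.J (b ^ n) = (L.J x - ξ) - (L.J (b ^ n) - ξ) := by abel
    rw [this]
    exact norm_sub_le _ _
  have hK := L.K_nonneg
  have h5 : L.K * (‖ξ‖ + δ') ^ 2 ≤ L.K * (2 * ‖L.J x‖) ^ 2 :=
    mul_le_mul_of_nonneg_left (pow_le_pow_left₀ (by positivity) (by linarith) 2) hK
  have h6 : ‖L.J (b ^ n)‖ ≤ 3 * ‖L.J x‖ := by linarith
  have h7 : L.K * (2 * ‖L.J x‖ * ‖L.J (b ^ n)‖ + ‖L.J (b ^ n)‖ ^ 2) ≤
      L.K * (2 * ‖L.J x‖ * (3 * ‖L.J x‖) + (3 * ‖L.J x‖) ^ 2) := by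
    gcongr
  have h8 := L.K_mul (x := ‖L.J x‖) (by linarith)
  nlinarith

/-- small elements are products of arbitrarily small elements -/
theorem gen : ∃ e > 0, ∀ δ > 0, ∀ x ∈ L.N, ‖L.J x‖ < e →
    x ∈ Subgroup.closure {g | g ∈ L.N ∧ ‖L.J g‖ < δ} := by
  obtain ⟨e, he, h⟩ := L.peel
  refine ⟨e, he, fun δ hδ => ?_⟩
  have key : ∀ k : ℕ, ∀ x ∈ L.N, ‖L.J x‖ < e → ‖L.J x‖ < 2 ^ k * δ →
      x ∈ Subgroup.closure {g | g ∈ L.N ∧ ‖L.J g‖ < δ} := by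
    intro k
    induction k with
    | zero => exact fun x hx _ h2 => Subgroup.subset_closure ⟨hx, by simpa using h2⟩
    | succ k ih =>
      intro x hx h1 h2
      obtain ⟨b, hb, n, p1, -, p3, p4⟩ := h x hx h1 (δ / 2) (by linarith)
      have h3 := ih _ p3 (by linarith [norm_nonneg (L.J x)]) (by rw [pow_succ] at h2; linarith)
      have h4 : b ∈ Subgroup.closure {g | g ∈ L.N ∧ ‖L.J g‖ < δ} :=
        Subgroup.subset_closure ⟨hb, by linarith⟩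
      simpa using Subgroup.mul_mem _ h3 (Subgroup.pow_mem _ h4 n)
  intro x hx h1
  obtain ⟨k, hk⟩ := pow_unbounded_of_one_lt (e / δ) (one_lt_two (α := ℝ))
  rw [div_lt_iff₀ hδ] at hk
  exact key k x hx h1 (h1.trans hk)

end Loc

end Vale.Agent.P284Z.GI
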