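import Vale.Agent.P284Z.I.Defs
import Mathlib.RingTheory.SimpleModule.IsAlgClosed
import Mathlib.RingTheory.Artinian.Module
import Mathlib.Analysis.Complex.Polynomial.Basic

/-!
# P284Z, block I: the simple quotients of a matrix algebra
-/

noncomputable section

namespace Vale.Agent.P284Z.GI

theorem derived_mem {A D : Type} [Ring A] [Group D] (I : Ideal A) [I.IsTwoSided] (u : D →* A)
    (h : ∀ g, u g - 1 ∈ I) (k : ℕ) : ∀ g ∈ derivedSeries D k, u g - 1 ∈ I ^ (k + 1) := by
  induction k with
  | zero => intro g _; rw [zero_add, Submodule.pow_one]; exact h g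
  | succ k ih =>
    let H : Subgroup D :=
      { carrier := {g | u g - 1 ∈ I ^ (k + 1 + 1)}
        one_mem' := by
          change u 1 - 1 ∈ I ^ (k + 1 + 1)
          rw [map_one, sub_self]
          exact zero_mem _
        mul_mem' := fun {a b} ha hb => by
          change u (a * b) - 1 ∈ I ^ (k + 1 + 1)
          have e : u (a * b) - 1 = u a * (u b - 1) + (u a - 1) := by
            rw [map_mul, mul_sub, mul_one, sub_add_sub_cancel]
          rw [e]
          exact add_mem (Ideal.mul_mem_left _ _ hb) ha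
        inv_mem' := fun {a} ha => by
          change u a⁻¹ - 1 ∈ I ^ (k + 1 + 1)
          have e : u a⁻¹ - 1 = -u a⁻¹ * (u a - 1) := by
            rw [mul_sub, neg_mul, ← map_mul, inv_mul_cancel, map_one, mul_one, sub_neg_eq_add,
              neg_add_eq_sub]
          rw [e]
          exact Ideal.mul_mem_left _ _ ha }
    refine (Subgroup.commutator_le (H₃ := H)).2 fun a ha b hb => ?_
    change u (a * b * a⁻¹ * b⁻¹) - 1 ∈ I ^ (k + 1 + 1)
    have e : u (a * b * a⁻¹ * b⁻¹) - 1 =
        ((u a - 1) * (u b - 1) - (u b - 1) * (u a - 1)) * u (a⁻¹ * b⁻¹) := by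
      have e1 : (u a - 1) * (u b - 1) - (u b - 1) * (u a - 1) = u (a * b) - u (b * a) := by
        rw [map_mul, map_mul]
        noncomm_ring
      rw [e1, sub_mul, ← map_mul, ← map_mul, mul_assoc b a, mul_inv_cancel_left, mul_inv_cancel,
        map_one, mul_assoc (a * b)]
    rw [e, Submodule.pow_succ]
    refine Ideal.mul_mem_right _ _ (sub_mem ?_ ?_)
    · exact Submodule.mul_mem_mul (ih a ha) (h b)
    · exact Submodule.mul_mem_mul (ih b hb) (h a)

theorem stRad : StRad := by
  intro d A
  have : IsArtinianRing A := IsArtinianRing.of_finite ℂ A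
  let I := Ring.jacobson A
  have : FiniteDimensional ℂ (A ⧸ I) :=
    Module.Finite.of_surjective (Ideal.Quotient.mkₐ ℂ I).toLinearMap Ideal.Quotient.mk_surjective
  obtain ⟨m, n, -, ⟨e⟩⟩ := IsSemisimpleRing.exists_algEquiv_pi_matrix_of_isAlgClosed ℂ (A ⧸ I)
  refine ⟨m, n, fun i => (Pi.evalAlgHom ℂ _ i).comp (e.toAlgHom.comp (Ideal.Quotient.mkₐ ℂ I)),
    fun i => (Function.surjective_eval i).comp (e.surjective.comp Ideal.Quotient.mk_surjective),
    fun D _ u hu => ?_⟩
  obtain ⟨N, hN⟩ : IsNilpotent I := IsSemiprimaryRing.isNilpotent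
  refine ⟨N, fun g hg => ?_⟩
  have h1 : ∀ g, u g - 1 ∈ I := fun g => by
    rw [← Ideal.Quotient.eq_zero_iff_mem, map_sub, map_one, sub_eq_zero]
    exact e.injective ((funext (hu g)).trans (map_one e).symm)
  have h2 := derived_mem I u h1 N g hg
  rw [Submodule.pow_succ, hN, zero_mul] at h2
  exact sub_eq_zero.1 h2

end Vale.Agent.P284Z.GI
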