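import Vale.Agent.P284Z.I.Defs
import Mathlib.Analysis.Normed.Group.Ultra

/-!
# P284Z, block I: finitely many small cosets
-/

open scoped Topology Pointwise
open Filter Set

noncomputable section

namespace Vale.Agent.P284Z.GI

theorem Sm.fi_of_inv {L : Type} [Group L] (M : Sm L) {X : Type} (act : L → X → X)
    (h1 : ∀ x, act 1 x = x) (hm : ∀ g h x, act (g * h) x = act g (act h x)) {T : Set X}
    (hT : T.Finite) {x : X} (hx : x ∈ T) {U : Set L} (hU : U ∈ M.F)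
    (h : ∀ g ∈ U, ∀ y ∈ T, act g y ∈ T) :
    ∃ H : Subgroup L, H.FiniteIndex ∧ ∀ g, g ∈ H ↔ act g x = x := by
  let _ : MulAction L X := { smul := act, one_smul := h1, mul_smul := hm }
  let S : Subgroup L :=
    { carrier := {g | ∀ y ∈ T, g • y ∈ T}
      one_mem' := fun y hy => by rwa [one_smul]
      mul_mem' := fun {a b} ha hb y hy => by rw [mul_smul]; exact ha _ (hb y hy)
      inv_mem' := fun {a} ha y hy => by
        obtain ⟨z, hz, rfl⟩ := ((hT.injOn_iff_bijOn_of_mapsTo (f := fun y => a • y) ha).1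
          (MulAction.injective a).injOn).surjOn hy
        rwa [inv_smul_smul] }
  have hS : ⊤ ≤ S := M.gen U hU ▸ (Subgroup.closure_le S).2 h
  have hfin : (MulAction.orbit L x).Finite := hT.subset (by
    rintro _ ⟨g, rfl⟩
    exact hS (Subgroup.mem_top g) x hx)
  refine ⟨MulAction.stabilizer L x, ⟨?_⟩, fun g => Iff.rfl⟩
  rw [MulAction.index_stabilizer]
  exact ((Set.ncard_pos hfin).2 ⟨x, MulAction.mem_orbit_self x⟩).ne'

theorem stStab : StStab := by
  intro L _ M H U hU T hT h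
  have h0 : ((QuotientGroup.mk : L → L ⧸ H) '' U).Finite := by
    refine (hT.image QuotientGroup.mk).subset ?_
    rintro _ ⟨g, hg, rfl⟩
    obtain ⟨t, ht, h1⟩ := h g hg
    exact ⟨t, ht, QuotientGroup.eq.2 h1⟩
  obtain ⟨U₀, ⟨hU₀, hfin⟩, hmin⟩ := exists_minimalFor_of_wellFoundedLT
    (fun U : Set L => U ∈ M.F ∧ ((QuotientGroup.mk : L → L ⧸ H) '' U).Finite)
    (fun U => ((QuotientGroup.mk : L → L ⧸ H) '' U).ncard) ⟨U, hU, h0⟩
  obtain ⟨V, hV, hVU⟩ := M.mul U₀ hU₀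
  have hsub : (QuotientGroup.mk : L → L ⧸ H) '' V ⊆ QuotientGroup.mk '' U₀ :=
    image_mono fun g hg => by simpa using hVU g hg 1 (M.one V hV)
  have heq := Set.eq_of_subset_of_ncard_le hsub
    (hmin ⟨hV, hfin.subset hsub⟩ (Set.ncard_le_ncard hsub hfin)) hfin
  obtain ⟨K, hK, hK'⟩ := M.fi_of_inv (fun g (y : L ⧸ H) => g • y) (fun x => one_smul _ x)
    (fun g h x => mul_smul g h x) hfin ⟨1, M.one _ hU₀, rfl⟩ hV (by
      intro g hg y hy
      rw [← heq] at hy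
      obtain ⟨k, hk, rfl⟩ := hy
      exact ⟨g * k, hVU g hg k hk, rfl⟩)
  refine Subgroup.finiteIndex_of_le (H := K) fun g hg => ?_
  have h1 : (QuotientGroup.mk (g * 1) : L ⧸ H) = QuotientGroup.mk 1 := (hK' g).1 hg
  simpa using QuotientGroup.eq.1 h1.symm

theorem entry_mul {k : Type} [NormedField k] [IsUltrametricDist k] {n : ℕ}
    {A B : Matrix (Fin n) (Fin n) k} {x y : ℝ} (hx : 0 ≤ x) (hy : 0 ≤ y) (hA : ∀ a b, ‖A a b‖ ≤ x)
    (hB : ∀ a b, ‖B a b‖ ≤ y) (a b : Fin n) : ‖(A * B) a b‖ ≤ x * y := by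
  rw [Matrix.mul_apply]
  refine IsUltrametricDist.norm_sum_le_of_forall_le_of_nonneg (mul_nonneg hx hy) fun i _ => ?_
  rw [norm_mul]
  exact mul_le_mul (hA _ _) (hB _ _) (norm_nonneg _) hx

theorem stNA : StNA := by
  intro k _ _ _ L _ M n s ⟨C, hC⟩
  have h1 : ∀ a b, ‖(1 : Matrix (Fin n) (Fin n) k) a b‖ ≤ 1 := fun a b => by
    rw [Matrix.one_apply]
    split_ifs <;> simp
  let H : Subgroup L :=
    { carrier := {g | (∀ a b, ‖s g a b‖ ≤ 1) ∧ ∀ a b, ‖s g⁻¹ a b‖ ≤ 1}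
      one_mem' := ⟨by simpa using h1, by simpa using h1⟩
      mul_mem' := fun {g h} hg hh => ⟨fun a b => by
          simpa using entry_mul zero_le_one zero_le_one hg.1 hh.1 a b, fun a b => by
          simpa using entry_mul zero_le_one zero_le_one hh.2 hg.2 a b⟩
      inv_mem' := fun {g} hg => ⟨hg.2, by simpa using hg.1⟩ }
  obtain ⟨D, hD, hCD⟩ : ∃ D > (0 : ℝ), C ≤ D := ⟨max C 1, by positivity, le_max_left _ _⟩
  obtain ⟨U, hU⟩ : ∃ U : Set L, U = {g | (∀ a b, ‖s g a b‖ ≤ D) ∧ ∀ a b, ‖s g⁻¹ a b‖ ≤ D} :=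
    ⟨_, rfl⟩
  have hUF : U ∈ M.F := by
    rw [hU]
    filter_upwards [hC, M.inv _ hC] with g g1 g2
    exact ⟨fun a b => (g1 a b).trans hCD, fun a b => (g2 a b).trans hCD⟩
  let f : L → Fin n → Fin n → k := fun g a b => s g a b
  have htb : TotallyBounded (f '' U) := by
    refine (isCompact_closedBall (0 : Fin n → Fin n → k) D).totallyBounded.subset ?_
    rintro _ ⟨g, hg, rfl⟩
    rw [hU] at hg
    rw [mem_closedBall_zero_iff, pi_norm_le_iff_of_nonneg hD.le]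
    exact fun a => (pi_norm_le_iff_of_nonneg hD.le).2 fun b => hg.1 a b
  obtain ⟨t, ht, htf, hcov⟩ := Metric.finite_approx_of_totallyBounded htb D⁻¹ (by positivity)
  obtain ⟨T, hTU, hT, rfl⟩ := (Set.exists_subset_image_finite_and (p := fun T => T = t)).1
    ⟨t, ht, htf, rfl⟩
  have key : ∀ g ∈ U, ∀ h ∈ U, dist (f g) (f h) < D⁻¹ → ∀ a b, ‖s (h⁻¹ * g) a b‖ ≤ 1 := by
    intro g hg h hh hd a b
    rw [hU] at hh
    have h2 : s (h⁻¹ * g) = 1 + s h⁻¹ * (s g - s h) := by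
      rw [mul_sub, ← map_mul, ← map_mul, inv_mul_cancel, map_one]
      abel
    have h3 := entry_mul hD.le (inv_pos.2 hD).le hh.2 (B := s g - s h) (fun a b => by
      rw [dist_eq_norm] at hd
      exact ((norm_le_pi_norm _ b).trans (norm_le_pi_norm (f g - f h) a)).trans hd.le) a b
    rw [mul_inv_cancel₀ hD.ne'] at h3
    rw [h2, Matrix.add_apply]
    exact (IsUltrametricDist.norm_add_le_max _ _).trans (max_le (h1 a b) h3)
  have hfi : H.FiniteIndex := stStab L M H U hUF T hT fun g hg => by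
    obtain ⟨_, ⟨h, hh, rfl⟩, h2⟩ := mem_iUnion₂.1 (hcov ⟨g, hg, rfl⟩)
    refine ⟨h, hh, key g hg h (hTU hh) h2, ?_⟩
    rw [mul_inv_rev, inv_inv]
    exact key h (hTU hh) g hg (by rw [dist_comm]; exact h2)
  obtain ⟨B, hB⟩ := (Set.finite_range fun q : (L ⧸ H) × Fin n × Fin n =>
    ‖s q.1.out q.2.1 q.2.2‖).bddAbove
  refine ⟨max B 0 * 1, fun g a b => ?_⟩
  obtain ⟨h, hh⟩ := QuotientGroup.mk_out_eq_mul H g
  have h2 : s g = s (QuotientGroup.mk g : L ⧸ H).out * s (h : L)⁻¹ := by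
    rw [← map_mul, hh, mul_inv_cancel_right]
  rw [h2]
  exact entry_mul (le_max_right _ _) zero_le_one
    (fun a b => le_max_of_le_left (hB ⟨(QuotientGroup.mk g, a, b), rfl⟩)) h.2.2 a b

end Vale.Agent.P284Z.GI
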