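import Vale.Agent.P284Z.I.Loc

/-!
# P284Z, block I: normal subgroups generated by small elements
-/

open scoped Topology Pointwise commutatorElement
open Filter Set

noncomputable section

namespace Vale.Agent.P284Z.GI

variable {Γ : Type} [Group Γ]

/-- the local structure of `S` -/
def loc (S : LS Γ) : Loc Γ (Fin S.M → ℝ) where
  N := S.N
  J := S.J
  ε := min S.ε₀ (1 / (100 * (max S.K 0 + 1)))
  ε_pos := lt_min S.ε₀_pos (by have := le_max_right S.K 0; positivity)
  K := max S.K 0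
  K_nonneg := le_max_right _ _
  Kε := by
    have h := le_max_right S.K 0
    refine (mul_le_mul_of_nonneg_left (min_le_right _ _) h).trans ?_
    rw [mul_one_div, div_le_div_iff₀ (by positivity) (by norm_num)]
    linarith
  one := S.one.1
  J_one := S.one.2
  mul := fun g hg h hh h1 h2 =>
    (S.mul g hg h hh (h1.trans_le (min_le_left _ _)) (h2.trans_le (min_le_left _ _))).imp_right
      fun h3 => h3.trans (mul_le_mul_of_nonneg_right (le_max_left _ _) (by positivity))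
  inv := fun g hg h1 => (S.inv g hg (h1.trans_le (min_le_left _ _))).imp_right
      fun h3 => h3.trans (mul_le_mul_of_nonneg_right (le_max_left _ _) (by positivity))

/-- restriction to a subgroup -/
def Loc.sub {E : Type} [NormedAddCommGroup E] (L : Loc Γ E) (H : Subgroup Γ) : Loc Γ E where
  N := (H : Set Γ) ∩ L.N
  J := L.J
  ε := L.ε
  ε_pos := L.ε_pos
  K := L.K
  K_nonneg := L.K_nonneg
  Kε := L.Kε
  one := ⟨H.one_mem, L.one⟩
  J_one := L.J_one
  mul := fun g hg h hh h1 h2 =>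
    (L.mul g hg.2 h hh.2 h1 h2).imp_left fun h3 => ⟨H.mul_mem hg.1 hh.1, h3⟩
  inv := fun g hg h1 => (L.inv g hg.2 h1).imp_left fun h3 => ⟨H.inv_mem hg.1, h3⟩

theorem conj' (S : LS Γ) (a : Γ) : ∃ ε > 0, ∃ K' ≥ (1 : ℝ), ∀ g ∈ S.N, ‖S.J g‖ < ε →
    a * g * a⁻¹ ∈ S.N ∧ ‖S.J (a * g * a⁻¹)‖ ≤ K' * ‖S.J g‖ := by
  obtain ⟨ε, hε, K', h⟩ := S.conj a
  exact ⟨ε, hε, max K' 1, le_max_right _ _, fun g hg h1 => (h g hg h1).imp_right fun h2 =>
    h2.trans (mul_le_mul_of_nonneg_right (le_max_left _ _) (norm_nonneg _))⟩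

/-- the identity component of a normal subgroup which is not discrete -/
theorem circ (S : LS Γ) (L : Subgroup Γ) (hL : L.Normal)
    (hnd : ∀ ε > 0, ∃ g ∈ L, g ∈ Nb S ε ∧ g ≠ 1) : ∃ D ≤ L, Cl S D := by
  obtain ⟨e, he, h⟩ := ((loc S).sub L).gen
  have hle : Subgroup.closure ((L : Set Γ) ∩ Nb S e) ≤ L :=
    (Subgroup.closure_le _).2 inter_subset_left
  have hgen : ∀ δ > 0, Subgroup.closure ((L : Set Γ) ∩ Nb S e) ≤
      Subgroup.closure ((L : Set Γ) ∩ Nb S δ) := fun δ hδ => by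
    rw [Subgroup.closure_le]
    rintro x ⟨hx, h1, h2⟩
    refine Subgroup.closure_mono ?_ (h δ hδ x ⟨hx, h1⟩ h2)
    exact fun g hg => ⟨hg.1.1, hg.1.2, hg.2⟩
  refine ⟨_, hle, ⟨fun x hx a => ?_⟩, ?_, fun δ hδ => ?_⟩
  · obtain ⟨ε, hε, K', hK', h1⟩ := conj' S a
    have h2 := hgen (min ε (e / K')) (lt_min hε (by positivity)) hx
    have h3 : Subgroup.closure ((L : Set Γ) ∩ Nb S (min ε (e / K'))) ≤
        (Subgroup.closure ((L : Set Γ) ∩ Nb S e)).comap (MulAut.conj a).toMonoidHom := by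
      rw [Subgroup.closure_le]
      rintro g ⟨g1, g2, g3⟩
      obtain ⟨h4, h5⟩ := h1 g g2 (g3.trans_le (min_le_left _ _))
      refine Subgroup.subset_closure ⟨hL.conj_mem g g1 a, h4, h5.trans_lt ?_⟩
      have h6 := g3.trans_le (min_le_right _ _)
      rwa [lt_div_iff₀' (by positivity)] at h6
    exact h3 h2
  · obtain ⟨g, g1, g2, g3⟩ := hnd e he
    intro h0
    exact g3 (Subgroup.mem_bot.1 (h0 ▸ Subgroup.subset_closure ⟨g1, g2⟩))
  · refine (hgen (min δ e) (lt_min hδ he)).trans (Subgroup.closure_mono ?_)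
    rintro g ⟨g1, g2, g3⟩
    exact ⟨Subgroup.subset_closure ⟨g1, g2, g3.trans_le (min_le_right _ _)⟩, g2,
      g3.trans_le (min_le_left _ _)⟩

theorem Cl.nd {S : LS Γ} {L : Subgroup Γ} (h : Cl S L) {ε : ℝ} (hε : 0 < ε) :
    ∃ g ∈ L, g ∈ Nb S ε ∧ g ≠ 1 := by
  by_contra hcon
  push Not at hcon
  refine h.ne (eq_bot_iff.2 ((h.gen ε hε).trans ((Subgroup.closure_le _).2 ?_)))
  rintro g ⟨g1, g2⟩
  exact Subgroup.mem_bot.2 (hcon g g1 g2)

theorem stSub : StSub := by
  intro Γ _ hab S hsep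
  refine ⟨?_, fun L hL => ?_, fun L hL H hH => ?_⟩
  · obtain ⟨D, -, hD⟩ := circ S ⊤ inferInstance fun ε hε => by
      obtain ⟨g, g1, g2, g3⟩ := S.nondisc ε hε
      exact ⟨g, trivial, ⟨g1, g3⟩, g2⟩
    exact ⟨D, hD⟩
  · have := hL.normal
    refine circ S _ inferInstance fun ε hε => ?_
    by_contra hcon
    push Not at hcon
    have hp := (loc S).ε_pos
    obtain ⟨δ, hδ, d1, d2⟩ : ∃ δ > 0, 10 * δ ≤ ε ∧ 10 * δ ≤ (loc S).ε :=
      ⟨min ε (loc S).ε / 10, by positivity, by linarith [min_le_left ε (loc S).ε],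
        by linarith [min_le_right ε (loc S).ε]⟩
    have key : ∀ x ∈ (L : Set Γ) ∩ Nb S δ, ∀ y ∈ (L : Set Γ) ∩ Nb S δ, x * y = y * x := by
      rintro x ⟨x1, x2, x3⟩ y ⟨y1, y2, y3⟩
      have x3' : ‖(loc S).J x‖ < δ := x3
      have y3' : ‖(loc S).J y‖ < δ := y3
      obtain ⟨h1, h2⟩ := (loc S).conj_small (g := x) (b := y) x2 y2 (by linarith) (by linarith)
      have h3 := ((loc S).inv y y2 (by linarith)).1
      have h4 := (loc S).inv_le (g := y) y2 (by linarith)
      have h5 := ((loc S).mul _ h1 _ h3 (by linarith) (by linarith)).1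
      have h6 := (loc S).mul_le h1 h3 (by linarith) (by linarith)
      have h7 := hcon ⁅x, y⁆ (Subgroup.commutator_mem_commutator x1 y1)
        ⟨h5, lt_of_le_of_lt h6 (by linarith)⟩
      exact commutatorElement_eq_one_iff_mul_comm.1 h7
    refine hL.ne (hab L hL.normal fun x hx y hy => ?_)
    have h1 : L ≤ Subgroup.centralizer ((L : Set Γ) ∩ Nb S δ) :=
      (hL.gen δ hδ).trans ((Subgroup.closure_le _).2 fun g hg k hk => key k hk g hg)
    have h2 : L ≤ Subgroup.centralizer {y} := (hL.gen δ hδ).trans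
      ((Subgroup.closure_le _).2 fun g hg k hk => by
        rw [mem_singleton_iff.1 hk]
        exact (h1 hy g hg).symm)
    exact (h2 hx y rfl).symm
  · have hr : 0 < H.normalCore.index := Nat.pos_of_ne_zero Subgroup.FiniteIndex.index_ne_zero
    obtain ⟨r, hr'⟩ : ∃ r, r = H.normalCore.index := ⟨_, rfl⟩
    have hle : Subgroup.closure ((fun x => x ^ r) '' (L : Set Γ)) ≤ H.map L.subtype := by
      rw [Subgroup.closure_le]
      rintro _ ⟨x, hx, rfl⟩
      exact ⟨(⟨x, hx⟩ : L) ^ r, H.normalCore_le (hr' ▸ H.normalCore.pow_index_mem _), rfl⟩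
    have hn : (Subgroup.closure ((fun x => x ^ r) '' (L : Set Γ))).Normal := ⟨fun x hx a => by
      have h3 : Subgroup.closure ((fun x => x ^ r) '' (L : Set Γ)) ≤
          (Subgroup.closure ((fun x => x ^ r) '' (L : Set Γ))).comap
            (MulAut.conj a).toMonoidHom := by
        rw [Subgroup.closure_le]
        rintro _ ⟨g, hg, rfl⟩
        exact Subgroup.subset_closure ⟨a * g * a⁻¹, hL.normal.conj_mem g hg a, conj_pow⟩
      exact h3 hx⟩
    obtain ⟨D, hD, hD'⟩ := circ S _ hn fun ε hε => by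
      have hp := (loc S).ε_pos
      have hr1 : (0 : ℝ) < r := by rw [hr']; exact_mod_cast hr
      obtain ⟨x, x1, ⟨x2, x3⟩, x4⟩ := hL.nd (ε := min ε (loc S).ε / (2 * r)) (by positivity)
      have x5 : 2 * (r * ‖(loc S).J x‖) < min ε (loc S).ε := by
        rw [lt_div_iff₀' (by positivity), mul_assoc] at x3
        exact x3
      obtain ⟨p1, p2, p3⟩ := (loc S).pow x2 r (x5.trans_le (min_le_right _ _))
      refine ⟨x ^ r, Subgroup.subset_closure ⟨x, x1, rfl⟩,
        ⟨p1, p3.trans_lt (x5.trans_le (min_le_left _ _))⟩, fun h0 => ?_⟩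
      have h1 : 0 < ‖(loc S).J x‖ := norm_pos_iff.2 fun h2 => x4 (hsep x x2 h2)
      rw [h0, (loc S).J_one, zero_sub, norm_neg, norm_smul, Real.norm_natCast] at p2
      have h3 : 0 < r * ‖(loc S).J x‖ := by positivity
      have h4 := (loc S).K_mul (x := r * ‖(loc S).J x‖)
        (by linarith [min_le_right ε (loc S).ε])
      nlinarith
    exact ⟨D, hD.trans hle, hD'⟩

end Vale.Agent.P284Z.GI
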